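import Vale.Agent.P092.H710.Rp.Est
import Vale.Agent.P092.H720.Rp.Pow
import Vale.Agent.P092.H452.Rp.Car

/-!
P092, project RP, block P7 (helper710): the Cartan decomposition with bounded factors.
-/

set_option linter.all false

open Module Matrix

namespace Vale.Agent.P092.H710.Rp

open Vale.Agent.P092.H213.Rp Vale.Agent.P092.H542.Rp

section bo

variable {k : Type} [NontriviallyNormedField k] {L : Type} [AddCommGroup L] [Module k L] {n : ℕ}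
  {b : Basis (Fin n) k L}

/-- `T` is bounded by `C` -/
def Bo (b : Basis (Fin n) k L) (C : ℝ) (T : Module.End k L) : Prop :=
  ∀ x, nm b (T x) ≤ C * nm b x

theorem Bo.mono {C C' : ℝ} {T : Module.End k L} (h : Bo b C T) (hC : C ≤ C') : Bo b C' T :=
  fun x => (h x).trans (mul_le_mul_of_nonneg_right hC (nm_nonneg b x))

theorem Bo.mul {C C' : ℝ} {S T : Module.End k L} (h0 : 0 ≤ C) (h : Bo b C S) (h' : Bo b C' T) :
    Bo b (C * C') (S * T) := fun x => by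
  rw [Module.End.mul_apply, mul_assoc]
  exact (h _).trans (mul_le_mul_of_nonneg_left (h' x) h0)

theorem Bo.entry {C : ℝ} {T : Module.End k L} (h : Bo b C T) (h0 : 0 ≤ C) (i j : Fin n) :
    ‖LinearMap.toMatrix b b T i j‖ ≤ C := by
  rw [LinearMap.toMatrix_apply]
  refine (coord_le b _ i).trans ((h (b j)).trans ?_)
  have h1 : nm b (b j) ≤ 1 := nm_le b zero_le_one fun i => by
    rw [Basis.repr_self, Finsupp.single_apply]
    split_ifs <;> simp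
  calc C * nm b (b j) ≤ C * 1 := mul_le_mul_of_nonneg_left h1 h0
    _ = C := mul_one C

end bo

variable {k : Type} [NontriviallyNormedField k] [CharZero k] {L : Type} [LieRing L]
  [LieAlgebra k L] {n r : ℕ} {b : Basis (Fin n) k L} {wt : Fin n → Fin r → ℤ} {E F H : Fin r → L}
  {G : Type} [Group G] {ρ : G →* Module.End k L}

theorem au_rho (hlie : ∀ g (x y : L), ρ g ⁅x, y⁆ = ⁅ρ g x, ρ g y⁆) (g : G) :
    Au (ρ g) (ρ g⁻¹) := by
  refine ⟨?_, ?_, hlie g⟩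
  · rw [← map_mul, mul_inv_cancel, map_one]
  · rw [← map_mul, inv_mul_cancel, map_one]

theorem isAut_au {m m' : Module.End k L} (h : Au m m') : IsAut m := ⟨⟨⟨m, m', h.r, h.l⟩, rfl⟩, h.lie⟩

theorem exists_h0 [LieAlgebra.IsKilling k L] (hR : Rt b wt E F H) : ∃ h₀ : L, Eg b h₀ (dgr wt) := by
  obtain ⟨h₀, h1⟩ := H720.Rp.exists_h hR.grad (fun _ => (1 : k))
  refine ⟨h₀, fun i => ?_⟩
  have h2 := LinearMap.congr_fun h1 (b i)
  rw [LieAlgebra.ad_apply, H720.Rp.dg_b] at h2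
  rw [h2, H720.Rp.lc, dgr]
  simp

/-- the decomposition with bounded unipotent factors -/
theorem uni [LieAlgebra.IsKilling k L] (hlie : ∀ g (x y : L), ρ g ⁅x, y⁆ = ⁅ρ g x, ρ g y⁆)
    (hfull : ∀ x : L, Nil k x → ∃ g, ρ g = eu k x) (hR : Rt b wt E F H) {h₀ : L}
    (h0 : Eg b h₀ (dgr wt)) : ∃ (Fs : Finset G) (C : ℝ), 0 ≤ C ∧ ∀ g : G, ∃ a ∈ Fs, ∃ a' ∈ Fs,
      ∃ z₁ ∈ egS k h₀ (Set.Iio 0), ∃ z₂ ∈ egS k h₀ (Set.Ioi 0), ∃ m m' : Module.End k L,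
      Lv h₀ m m' ∧ ρ (a * g * a') = eu k z₁ * m * eu k z₂ ∧ nm b z₁ ≤ C ∧ nm b z₂ ≤ C := by
  classical
  haveI : Module.Finite k L := Module.Finite.of_basis b
  obtain ⟨i₀, -⟩ := exists_ia hR ⟨0, hR.pos⟩
  have hn : 0 < n := i₀.pos
  obtain ⟨D, hD⟩ : ∃ D : ℕ, ∀ i, |dgr wt i| ≤ D := by
    refine ⟨∑ i, (dgr wt i).natAbs, fun i => ?_⟩
    have h1 : (dgr wt i).natAbs ≤ ∑ i, (dgr wt i).natAbs :=
      Finset.single_le_sum (f := fun i => (dgr wt i).natAbs) (fun _ _ => Nat.zero_le _)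
        (Finset.mem_univ i)
    rw [Int.abs_eq_natAbs]
    exact_mod_cast h1
  obtain ⟨D1, hD1⟩ := low_est h0 hD hn
  obtain ⟨D2, hD2⟩ := up_est h0 hD hn
  -- the finite set of translates
  have hf : ∀ (l : Fin n) (i : ℕ), ∃ f : G, dgr wt l ≠ 0 → ρ f = eu k ((i : k) • b l) := by
    intro l i
    by_cases hl : dgr wt l = 0
    · exact ⟨1, fun h => absurd hl h⟩
    · have hnl : Nil k (b l) := by
        rcases lt_or_gt_of_ne hl with h | h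
        · exact nil_neg h0.spl (h0.b_mem (S := Set.Iio 0) h)
        · exact nil_pos h0.spl (h0.b_mem (S := Set.Ioi 0) h)
      obtain ⟨f, hf⟩ := hfull _ (Nil.smul hnl (i : k))
      exact ⟨f, fun _ => hf⟩
  choose f hf using hf
  let Q : Finset G := insert 1
    ((Finset.univ ×ˢ Finset.range (D1 + D2 + 1)).image fun p : Fin n × ℕ => f p.1 p.2)
  have h1Q : (1 : G) ∈ Q := Finset.mem_insert_self _ _
  have hfQ : ∀ (l : Fin n) (i : ℕ), i < D1 + D2 + 1 → f l i ∈ Q := fun l i hi =>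
    Finset.mem_insert_of_mem (Finset.mem_image.2 ⟨(l, i), Finset.mem_product.2
      ⟨Finset.mem_univ l, Finset.mem_range.2 hi⟩, rfl⟩)
  let R : G →* Matrix (Fin n) (Fin n) k :=
    { toFun := fun g => LinearMap.toMatrix b b (ρ g)
      map_one' := by rw [map_one]; exact LinearMap.toMatrix_one b
      map_mul' := fun g g' => by rw [map_mul]; exact LinearMap.toMatrix_mul b _ _ }
  obtain ⟨Fs, C, hC, hgood⟩ := exists_good (blk (dgr wt) D) R Q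
  obtain ⟨C1, hC1, hlow⟩ := hD1 C
  obtain ⟨C2, hC2, hup⟩ := hD2 C
  refine ⟨Fs, C1 + C2, add_nonneg hC1 hC2, fun g => ?_⟩
  obtain ⟨a, ha, a', ha', hne, hq⟩ := hgood g
  refine ⟨a, ha, a', ha', ?_⟩
  set g' := a * g * a' with hg'
  have hne' : Dl b (dgr wt) D (ρ g') ≠ 0 := hne
  obtain ⟨z₁, hz₁, z₂, hz₂, m, m', hm, a1, a2, a3, a4, e⟩ :=
    dec h0.spl (au_rho hlie g') (isCompl_of_Dl h0 hD (au_rho hlie g') hne')
  have hLv : Lv h₀ m m' := ⟨hm, a1, a2, a3, a4⟩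
  have hpr : ∀ i l, b.repr (m (b l)) i ≠ 0 → dgr wt l = dgr wt i := fun i l hil =>
    hLv.pres hR h0 hil
  have hDm : Dl b (dgr wt) D (ρ g') = Dl b (dgr wt) D m := by
    rw [e, h0.mul_up hz₂, h0.low_mul hz₁]
  have hm0 : 0 < ‖Dl b (dgr wt) D m‖ := by rw [← hDm]; exact norm_pos_iff.2 hne'
  have hq' : ∀ f ∈ Q, ∀ f' ∈ Q, ‖Dl b (dgr wt) D (ρ f * ρ g' * ρ f')‖ ≤
      C * ‖Dl b (dgr wt) D m‖ := by
    intro f hf f' hf'
    have h2 := hq f hf f' hf'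
    rw [← hDm]
    rw [Dl, toM_mul, toM_mul]
    exact h2
  refine ⟨z₁, hz₁, z₂, hz₂, m, m', hLv, e, ?_, ?_⟩
  · refine (hlow z₁ hz₁ fun l hl i => ?_).trans (le_add_of_nonneg_right hC2)
    have h2 := hq' (f l i) (hfQ l i (by have := i.2; omega)) 1 h1Q
    rw [hf l i hl.ne', map_one, mul_one, e] at h2
    have e2 : eu k (((i : ℕ) : k) • b l) * (eu k z₁ * m * eu k z₂) =
        eu k (((i : ℕ) : k) • b l) * eu k z₁ * m * eu k z₂ := by simp only [mul_assoc]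
    rw [e2, h0.mul_up hz₂, mul_pres hpr, norm_mul] at h2
    exact le_of_mul_le_mul_right h2 hm0
  · refine (hup z₂ hz₂ fun l hl i => ?_).trans (le_add_of_nonneg_left hC1)
    have h2 := hq' 1 h1Q (f l i) (hfQ l i (by have := i.2; omega))
    rw [hf l i hl.ne, map_one, one_mul, e] at h2
    have e2 : eu k z₁ * m * eu k z₂ * eu k (((i : ℕ) : k) • b l) =
        eu k z₁ * (m * (eu k z₂ * eu k (((i : ℕ) : k) • b l))) := by simp only [mul_assoc]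
    rw [e2, h0.low_mul hz₁, pres_mul hpr, norm_mul, mul_comm C] at h2
    exact le_of_mul_le_mul_left h2 hm0

/-- the decomposition `ρ g = κ₁ m κ₂` with bounded `κ₁`, `κ₂` -/
theorem big [LieAlgebra.IsKilling k L] (hlie : ∀ g (x y : L), ρ g ⁅x, y⁆ = ⁅ρ g x, ρ g y⁆)
    (hfull : ∀ x : L, Nil k x → ∃ g, ρ g = eu k x) (hR : Rt b wt E F H) : ∃ C₀ : ℝ, ∀ g,
      ∃ κ₁ κ₁i κ₂ κ₂i m : Module.End k L, κ₁ * κ₁i = 1 ∧ κ₂ * κ₂i = 1 ∧
      (∀ i j, ‖LinearMap.toMatrix b b κ₁ i j‖ ≤ C₀) ∧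
      (∀ i j, ‖LinearMap.toMatrix b b κ₁i i j‖ ≤ C₀) ∧
      (∀ i j, ‖LinearMap.toMatrix b b κ₂ i j‖ ≤ C₀) ∧
      (∀ i j, ‖LinearMap.toMatrix b b κ₂i i j‖ ≤ C₀) ∧
      IsAut m ∧ (∀ x ∈ W b wt 0, m x ∈ W b wt 0) ∧ ρ g = κ₁ * m * κ₂ := by
  classical
  haveI : Module.Finite k L := Module.Finite.of_basis b
  obtain ⟨h₀, h0⟩ := exists_h0 hR
  obtain ⟨Fs, C, hC, hF⟩ := uni hlie hfull hR h0
  choose c hc hcb using fun a : G => end_bound b (ρ a)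
  obtain ⟨Ce, hCe, he⟩ := eu_bound b C
  set CF : ℝ := ∑ a ∈ Fs, (c a + c a⁻¹) with hCF
  have hCF0 : 0 ≤ CF := Finset.sum_nonneg fun a _ => add_nonneg (hc a) (hc a⁻¹)
  have hle : ∀ a ∈ Fs, c a + c a⁻¹ ≤ CF := fun a ha =>
    Finset.single_le_sum (f := fun a => c a + c a⁻¹)
      (fun a _ => add_nonneg (hc a) (hc a⁻¹)) ha
  have hb1 : ∀ a ∈ Fs, Bo b CF (ρ a) := fun a ha =>
    Bo.mono (hcb a) ((le_add_of_nonneg_right (hc a⁻¹)).trans (hle a ha))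
  have hb2 : ∀ a ∈ Fs, Bo b CF (ρ a⁻¹) := fun a ha =>
    Bo.mono (hcb a⁻¹) ((le_add_of_nonneg_left (hc a)).trans (hle a ha))
  refine ⟨CF * Ce, fun g => ?_⟩
  obtain ⟨a, ha, a', ha', z₁, hz₁, z₂, hz₂, m, m', hm, e, n1, n2⟩ := hF g
  have hn1 : Nil k z₁ := nil_neg h0.spl hz₁
  have hn2 : Nil k z₂ := nil_pos h0.spl hz₂
  have h00 : 0 ≤ CF * Ce := mul_nonneg hCF0 hCe
  have B1 : Bo b Ce (eu k z₁) := he z₁ n1
  have B1' : Bo b Ce (eu k (-z₁)) := he (-z₁) (by rw [nm_neg]; exact n1)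
  have B2 : Bo b Ce (eu k z₂) := he z₂ n2
  have B2' : Bo b Ce (eu k (-z₂)) := he (-z₂) (by rw [nm_neg]; exact n2)
  refine ⟨ρ a⁻¹ * eu k z₁, eu k (-z₁) * ρ a, eu k z₂ * ρ a'⁻¹, ρ a' * eu k (-z₂), m, ?_, ?_,
    Bo.entry (Bo.mul hCF0 (hb2 a ha) B1) h00,
    Bo.entry (by rw [mul_comm CF]; exact Bo.mul hCe B1' (hb1 a ha)) h00,
    Bo.entry (by rw [mul_comm CF]; exact Bo.mul hCe B2 (hb2 a' ha')) h00,
    Bo.entry (Bo.mul hCF0 (hb1 a' ha') B2') h00,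
    isAut_au hm.au, fun x hx => hm.W0 hR h0 hx, ?_⟩
  · calc ρ a⁻¹ * eu k z₁ * (eu k (-z₁) * ρ a) = ρ a⁻¹ * (eu k z₁ * eu k (-z₁)) * ρ a := by
          simp only [mul_assoc]
      _ = 1 := by rw [eu_mul_neg hn1, mul_one, ← map_mul, inv_mul_cancel, map_one]
  · calc eu k z₂ * ρ a'⁻¹ * (ρ a' * eu k (-z₂)) = eu k z₂ * (ρ a'⁻¹ * ρ a') * eu k (-z₂) := by
          simp only [mul_assoc]
      _ = 1 := by rw [← map_mul, inv_mul_cancel, map_one, mul_one, eu_mul_neg hn2]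
  · calc ρ g = ρ (a⁻¹ * (a * g * a') * a'⁻¹) := by congr 1; group
      _ = ρ a⁻¹ * (eu k z₁ * m * eu k z₂) * ρ a'⁻¹ := by rw [map_mul, map_mul, e]
      _ = _ := by simp only [mul_assoc]

/-- **Cartan decomposition with bounded factors**, general form. -/
theorem kak [ProperSpace k] [LieAlgebra.IsKilling k L]
    (hlie : ∀ g (x y : L), ρ g ⁅x, y⁆ = ⁅ρ g x, ρ g y⁆)
    (hfull : ∀ x : L, Nil k x → ∃ g, ρ g = eu k x) (hR : Rt b wt E F H) (π : kˣ)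
    (hπ : 1 < ‖(π : k)‖) :
    ∃ C : ℝ, ∀ g, ∃ (κ κi κ' κi' : Module.End k L) (t : Fin r → ℤ), κ * κi = 1 ∧ κ' * κi' = 1 ∧
      (∀ i j, ‖LinearMap.toMatrix b b κ i j‖ ≤ C) ∧
      (∀ i j, ‖LinearMap.toMatrix b b κi i j‖ ≤ C) ∧
      (∀ i j, ‖LinearMap.toMatrix b b κ' i j‖ ≤ C) ∧
      (∀ i j, ‖LinearMap.toMatrix b b κi' i j‖ ≤ C) ∧
      ρ g = κ * tor b wt (fun a => π ^ t a) * κ' := by
  obtain ⟨C₀, hU⟩ := big hlie hfull hR
  exact H452.Rp.car_of hR π hπ (fun g => ρ g) C₀ hU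

section top

variable [TopologicalSpace G] {b₀ : Basis (Fin n) k L}

/-- **Cartan decomposition with bounded factors** for the groups of the class `RP`. -/
theorem car [ProperSpace k] (hρ : RP b₀ ρ) (hR : Rt b wt E F H) (π : kˣ) (hπ : 1 < ‖(π : k)‖) :
    ∃ C : ℝ, ∀ g, ∃ (κ κi κ' κi' : Module.End k L) (t : Fin r → ℤ), κ * κi = 1 ∧ κ' * κi' = 1 ∧
      (∀ i j, ‖LinearMap.toMatrix b b κ i j‖ ≤ C) ∧
      (∀ i j, ‖LinearMap.toMatrix b b κi i j‖ ≤ C) ∧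
      (∀ i j, ‖LinearMap.toMatrix b b κ' i j‖ ≤ C) ∧
      (∀ i j, ‖LinearMap.toMatrix b b κi' i j‖ ≤ C) ∧
      ρ g = κ * tor b wt (fun a => π ^ t a) * κ' := by
  haveI := hρ.simple
  haveI : Module.Finite k L := Module.Finite.of_basis b
  exact kak hρ.lie hρ.full hR π hπ

end top

end Vale.Agent.P092.H710.Rp
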