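import Mathlib.LinearAlgebra.Matrix.Charpoly.Coeff
import Mathlib.LinearAlgebra.Lagrange
import Mathlib.LinearAlgebra.FiniteDimensional.Lemmas
import Mathlib.Analysis.Normed.Field.Basic

/-!
P092, project RP, block P7 (helper710), part 1: products of leading minors as matrix coefficients of
Kronecker powers. `J` is the set of rows of all the blocks, `cl` the block, `e` the index.
-/

set_option linter.all false

open Matrix

namespace Vale.Agent.P092.H710.Rp

variable {k : Type} [CommRing k] {n : ℕ} {J : Type} [Fintype J] [DecidableEq J] {M : Type}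
  [DecidableEq M]

/-- the Kronecker power -/
def T (g : Matrix (Fin n) (Fin n) k) : ((J → Fin n) → k) →ₗ[k] ((J → Fin n) → k) where
  toFun f a := ∑ b : J → Fin n, (∏ i, g (a i) (b i)) * f b
  map_add' f g := by
    funext a
    simp only [Pi.add_apply, mul_add, Finset.sum_add_distrib]
  map_smul' c f := by
    funext a
    simp only [Pi.smul_apply, smul_eq_mul, RingHom.id_apply, Finset.mul_sum]
    refine Finset.sum_congr rfl fun t _ => by ring

theorem T_apply (g : Matrix (Fin n) (Fin n) k) (f : (J → Fin n) → k) (a : J → Fin n) :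
    T g f a = ∑ b : J → Fin n, (∏ i, g (a i) (b i)) * f b := rfl

theorem T_mul (g g' : Matrix (Fin n) (Fin n) k) (f : (J → Fin n) → k) :
    T (g * g') f = T g (T g' f) := by
  funext a
  simp only [T_apply, Finset.mul_sum]
  rw [Finset.sum_comm]
  refine Finset.sum_congr rfl fun b _ => ?_
  simp only [← mul_assoc, ← Finset.sum_mul, ← Finset.prod_mul_distrib, Matrix.mul_apply]
  congr 1
  rw [Finset.prod_univ_sum]
  simp only [Fintype.piFinset_univ]

/-- the masked matrix with rows `a` and columns `e` -/
def B (cl : J → M) (e : J → Fin n) (g : Matrix (Fin n) (Fin n) k) (a : J → Fin n) :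
    Matrix J J k := Matrix.of fun j l => if cl j = cl l then g (a j) (e l) else 0

/-- the top vector -/
def tv (cl : J → M) (e : J → Fin n) : (J → Fin n) → k := fun a => (B cl e 1 a).det

/-- the product of the leading minors -/
def Del (cl : J → M) (e : J → Fin n) (g : Matrix (Fin n) (Fin n) k) : k := (B cl e g e).det

theorem T_tv (cl : J → M) (e : J → Fin n) (g : Matrix (Fin n) (Fin n) k) (a : J → Fin n) :
    T g (tv cl e) a = (B cl e g a).det := by
  have h1 : (B cl e g a) = Matrix.of fun j => ∑ t : Fin n, g (a j) t •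
      (fun l => if cl j = cl l then (1 : Matrix (Fin n) (Fin n) k) t (e l) else 0) := by
    ext j l
    simp only [B, Matrix.of_apply, Finset.sum_apply, Pi.smul_apply, smul_eq_mul, Matrix.one_apply]
    by_cases h : cl j = cl l
    · simp [h]
    · simp [h]
  have h2 := (Matrix.detRowAlternating (R := k) (n := J)).toMultilinearMap.map_sum
    (fun (j : J) (t : Fin n) => g (a j) t •
      (fun l => if cl j = cl l then (1 : Matrix (Fin n) (Fin n) k) t (e l) else 0))
  rw [h1]
  have h3 : (Matrix.of fun j => ∑ t : Fin n, g (a j) t •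
      (fun l => if cl j = cl l then (1 : Matrix (Fin n) (Fin n) k) t (e l) else 0)).det =
      (Matrix.detRowAlternating (R := k) (n := J)).toMultilinearMap (fun j => ∑ t : Fin n,
        g (a j) t • (fun l => if cl j = cl l then (1 : Matrix (Fin n) (Fin n) k) t (e l) else 0)) := rfl
  rw [h3, h2, T_apply]
  refine Finset.sum_congr rfl fun b _ => ?_
  have h4 := (Matrix.detRowAlternating (R := k) (n := J)).toMultilinearMap.map_smul_univ
    (fun j => g (a j) (b j))
    (fun j => (fun l => if cl j = cl l then (1 : Matrix (Fin n) (Fin n) k) (b j) (e l) else 0))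
  rw [h4, smul_eq_mul]
  rfl

theorem Del_eq (cl : J → M) (e : J → Fin n) (f g f' : Matrix (Fin n) (Fin n) k) :
    Del cl e (f * g * f') = T f (T g (T f' (tv cl e))) e := by
  rw [Del, ← T_tv, T_mul, T_mul]

/-- the block structure: the classes of `J` are `{i | c ≤ deg i}` -/
structure Blk (cl : J → M) (e : J → Fin n) (S : M → Fin n → Prop) : Prop where
  inj : ∀ j l, cl j = cl l → e j = e l → j = l
  mem : ∀ j, S (cl j) (e j)
  surj : ∀ c i, S c i → ∃ l, cl l = c ∧ e l = i

theorem Del_mul_right {cl : J → M} {e : J → Fin n} {S : M → Fin n → Prop} (hB : Blk cl e S)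
    (g p : Matrix (Fin n) (Fin n) k) (hp : ∀ c i l, ¬ S c i → S c l → p i l = 0) :
    Del cl e (g * p) = Del cl e g * Del cl e p := by
  rw [Del, Del, Del, ← det_mul]
  congr 1
  ext j l
  rw [Matrix.mul_apply]
  simp only [B, Matrix.of_apply]
  by_cases h : cl j = cl l
  · rw [if_pos h, Matrix.mul_apply]
    have h1 : ∀ i : Fin n, ¬ S (cl j) i → g (e j) i * p i (e l) = 0 := by
      intro i hi
      rw [hp (cl j) i (e l) hi (h ▸ hB.mem l), mul_zero]
    have h2 : ∀ m : J, cl m ≠ cl j → ((if cl j = cl m then g (e j) (e m) else 0) *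
        (if cl m = cl l then p (e m) (e l) else 0)) = 0 := by
      intro m hm
      rw [if_neg (fun h' => hm h'.symm), zero_mul]
    classical
    rw [← Finset.sum_subset (Finset.subset_univ (Finset.univ.filter fun i => S (cl j) i))
      (fun i _ hi => h1 i (by simpa using hi)),
      ← Finset.sum_subset (Finset.subset_univ (Finset.univ.filter fun m => cl m = cl j))
      (fun m _ hm => h2 m (by simpa using hm))]
    symm
    refine Finset.sum_bij (fun m _ => e m) ?_ ?_ ?_ ?_
    · intro m hm
      simp only [Finset.mem_filter, Finset.mem_univ, true_and] at hm ⊢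
      rw [← hm]; exact hB.mem m
    · intro m hm m' hm' h3
      simp only [Finset.mem_filter, Finset.mem_univ, true_and] at hm hm'
      exact hB.inj m m' (hm.trans hm'.symm) h3
    · intro i hi
      simp only [Finset.mem_filter, Finset.mem_univ, true_and] at hi
      obtain ⟨m, hm, hm'⟩ := hB.surj (cl j) i hi
      exact ⟨m, by simpa using hm, hm'⟩
    · intro m hm
      simp only [Finset.mem_filter, Finset.mem_univ, true_and] at hm
      rw [if_pos hm.symm, if_pos (hm.trans h)]
  · rw [if_neg h]
    symm
    refine Finset.sum_eq_zero fun m _ => ?_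
    by_cases h3 : cl j = cl m
    · rw [if_neg (fun h4 : cl m = cl l => h (h3.trans h4)), mul_zero]
    · rw [if_neg h3, zero_mul]

theorem Del_mul_left {cl : J → M} {e : J → Fin n} {S : M → Fin n → Prop} (hB : Blk cl e S)
    (s g : Matrix (Fin n) (Fin n) k) (hs : ∀ c i l, S c i → ¬ S c l → s i l = 0) :
    Del cl e (s * g) = Del cl e s * Del cl e g := by
  rw [Del, Del, Del, ← det_mul]
  congr 1
  ext j l
  rw [Matrix.mul_apply]
  simp only [B, Matrix.of_apply]
  by_cases h : cl j = cl l
  · rw [if_pos h, Matrix.mul_apply]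
    have h1 : ∀ i : Fin n, ¬ S (cl j) i → s (e j) i * g i (e l) = 0 := by
      intro i hi
      rw [hs (cl j) (e j) i (hB.mem j) hi, zero_mul]
    have h2 : ∀ m : J, cl m ≠ cl j → ((if cl j = cl m then s (e j) (e m) else 0) *
        (if cl m = cl l then g (e m) (e l) else 0)) = 0 := by
      intro m hm
      rw [if_neg (fun h' => hm h'.symm), zero_mul]
    classical
    rw [← Finset.sum_subset (Finset.subset_univ (Finset.univ.filter fun i => S (cl j) i))
      (fun i _ hi => h1 i (by simpa using hi)),
      ← Finset.sum_subset (Finset.subset_univ (Finset.univ.filter fun m => cl m = cl j))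
      (fun m _ hm => h2 m (by simpa using hm))]
    symm
    refine Finset.sum_bij (fun m _ => e m) ?_ ?_ ?_ ?_
    · intro m hm
      simp only [Finset.mem_filter, Finset.mem_univ, true_and] at hm ⊢
      rw [← hm]; exact hB.mem m
    · intro m hm m' hm' h3
      simp only [Finset.mem_filter, Finset.mem_univ, true_and] at hm hm'
      exact hB.inj m m' (hm.trans hm'.symm) h3
    · intro i hi
      simp only [Finset.mem_filter, Finset.mem_univ, true_and] at hi
      obtain ⟨m, hm, hm'⟩ := hB.surj (cl j) i hi
      exact ⟨m, by simpa using hm, hm'⟩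
    · intro m hm
      simp only [Finset.mem_filter, Finset.mem_univ, true_and] at hm
      rw [if_pos hm.symm, if_pos (hm.trans h)]
  · rw [if_neg h]
    symm
    refine Finset.sum_eq_zero fun m _ => ?_
    by_cases h3 : cl j = cl m
    · rw [if_neg (fun h4 : cl m = cl l => h (h3.trans h4)), mul_zero]
    · rw [if_neg h3, zero_mul]

theorem B_one {cl : J → M} {e : J → Fin n} {S : M → Fin n → Prop} (hB : Blk cl e S) :
    B cl e (1 : Matrix (Fin n) (Fin n) k) e = 1 := by
  ext j l
  simp only [B, Matrix.of_apply, Matrix.one_apply]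
  by_cases h : j = l
  · subst h; simp
  · rw [if_neg h]
    by_cases h1 : cl j = cl l
    · rw [if_pos h1, if_neg fun h2 => h (hB.inj _ _ h1 h2)]
    · rw [if_neg h1]

/-- nonvanishing of the minors: injectivity of the compressions -/
theorem Del_inj {k : Type} [Field k] {cl : J → M} {e : J → Fin n} {S : M → Fin n → Prop}
    (hB : Blk cl e S) {g : Matrix (Fin n) (Fin n) k} (hg : Del cl e g ≠ 0) (c : M) {w : Fin n → k}
    (h1 : ∀ i, ¬ S c i → w i = 0) (h2 : ∀ i, S c i → (g *ᵥ w) i = 0) : w = 0 := by
  classical
  have h3 : B cl e g e *ᵥ (fun j => if cl j = c then w (e j) else 0) = 0 := by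
    funext j
    rw [Pi.zero_apply, Matrix.mulVec, dotProduct]
    by_cases hj : cl j = c
    · have h4 := h2 (e j) (hj ▸ hB.mem j)
      rw [Matrix.mulVec, dotProduct] at h4
      have h5 : ∀ i : Fin n, ¬ S c i → g (e j) i * w i = 0 := fun i hi => by rw [h1 i hi, mul_zero]
      have h6 : ∀ m : J, cl m ≠ c → (B cl e g e j m * if cl m = c then w (e m) else 0) = 0 :=
        fun m hm => by rw [if_neg hm, mul_zero]
      refine Eq.trans ?_ h4
      rw [← Finset.sum_subset (Finset.subset_univ (Finset.univ.filter fun i => S c i))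
        (fun i _ hi => h5 i (by simpa using hi)),
        ← Finset.sum_subset (Finset.subset_univ (Finset.univ.filter fun m => cl m = c))
        (fun m _ hm => h6 m (by simpa using hm))]
      refine Finset.sum_bij (fun m _ => e m) ?_ ?_ ?_ ?_
      · intro m hm
        simp only [Finset.mem_filter, Finset.mem_univ, true_and] at hm ⊢
        rw [← hm]; exact hB.mem m
      · intro m hm m' hm' h3
        simp only [Finset.mem_filter, Finset.mem_univ, true_and] at hm hm'
        exact hB.inj m m' (hm.trans hm'.symm) h3
      · intro i hi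
        simp only [Finset.mem_filter, Finset.mem_univ, true_and] at hi
        obtain ⟨m, hm, hm'⟩ := hB.surj c i hi
        exact ⟨m, by simpa using hm, hm'⟩
      · intro m hm
        simp only [Finset.mem_filter, Finset.mem_univ, true_and] at hm
        rw [if_pos hm, B, Matrix.of_apply, if_pos (hj.trans hm.symm)]
    · refine Finset.sum_eq_zero fun m _ => ?_
      by_cases hm : cl m = c
      · rw [B, Matrix.of_apply, if_neg (fun h => hj (h.trans hm)), zero_mul]
      · rw [if_neg hm, mul_zero]
  have h4 := Matrix.eq_zero_of_mulVec_eq_zero hg h3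
  funext i
  by_cases hi : S c i
  · obtain ⟨l, hl, rfl⟩ := hB.surj c i hi
    have := congrFun h4 l
    simpa [hl] using this
  · exact h1 i hi

theorem Del_one {cl : J → M} {e : J → Fin n} {S : M → Fin n → Prop} (hB : Blk cl e S) :
    Del cl e (1 : Matrix (Fin n) (Fin n) k) = 1 := by
  rw [Del, B_one hB, det_one]

end Vale.Agent.P092.H710.Rp
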