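import Vale.Agent.P092.H710.Rp.Grd

/-!
P092, project RP, block P7 (helper710), part 7: the Levi factor preserves the principal grading.
-/

set_option linter.all false

open Module Matrix

namespace Vale.Agent.P092.H710.Rp

open Vale.Agent.P092.H213.Rp Vale.Agent.P092.H542.Rp

variable {k L : Type} [Field k] [CharZero k] [LieRing L] [LieAlgebra k L] {n r : ℕ}
  {b : Basis (Fin n) k L} {wt : Fin n → Fin r → ℤ} {E F H : Fin r → L}

/-- the principal degree -/
def dgr (wt : Fin n → Fin r → ℤ) (i : Fin n) : ℤ := ∑ a, wt i a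

theorem repr_lie {h : L} {c : Fin n → k} (hc : ∀ i, ⁅h, b i⁆ = c i • b i) (x : L) (l : Fin n) :
    b.repr ⁅h, x⁆ l = c l * b.repr x l := by
  conv_lhs => rw [← b.sum_repr x, lie_sum]
  simp only [lie_smul, hc _, map_sum, map_smul, Finsupp.coe_finset_sum, Finset.sum_apply,
    Finsupp.smul_apply, smul_eq_mul, Basis.repr_self, Finsupp.single_apply]
  rw [Finset.sum_eq_single l]
  · simp; ring
  · intro i _ hi
    rw [if_neg hi]; simp
  · simp

theorem exists_l (T : Module.End k L) {x : L} {i : Fin n} (hx : b.repr (T x) i ≠ 0) :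
    ∃ l, b.repr x l ≠ 0 ∧ b.repr (T (b l)) i ≠ 0 := by
  by_contra hn
  push Not at hn
  apply hx
  rw [← b.sum_repr x, map_sum, map_sum, Finsupp.coe_finset_sum, Finset.sum_apply]
  refine Finset.sum_eq_zero fun l _ => ?_
  rw [map_smul, map_smul, Finsupp.smul_apply, smul_eq_mul]
  by_cases hl : b.repr x l = 0
  · rw [hl, zero_mul]
  · rw [hn l hl, mul_zero]

theorem dgr_zero (hR : Rt b wt E F H) {i : Fin n} (hi : dgr wt i = 0) : wt i = 0 := by
  unfold dgr at hi
  rcases hR.sgn i with h | h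
  · rw [Finset.sum_eq_zero_iff_of_nonneg (fun a _ => h a)] at hi
    funext a; exact hi a (Finset.mem_univ a)
  · rw [Finset.sum_eq_zero_iff_of_nonpos (fun a _ => h a)] at hi
    funext a; exact hi a (Finset.mem_univ a)

theorem exists_ia (hR : Rt b wt E F H) (a : Fin r) : ∃ i, wt i = Pi.single a 1 := by
  by_contra hn
  push Not at hn
  have h1 : E a = 0 := by
    have h2 := hR.wE a
    have h3 : {x | ∃ i, wt i = Pi.single a 1 ∧ b i = x} = ∅ := by
      ext x
      simp only [Set.mem_setOf_eq, Set.mem_empty_iff_false, iff_false, not_exists, not_and]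
      intro i hi
      exact absurd hi (hn i)
    rw [W, h3, Submodule.span_empty] at h2
    exact (Submodule.mem_bot k).1 h2
  have h4 := (hR.tri a).lie_e_f
  rw [h1, zero_lie] at h4
  exact (hR.tri a).h_ne_zero h4.symm

theorem mem_W0 (hR : Rt b wt E F H) {x : L} (h1 : ∀ i, dgr wt i ≠ 0 → b.repr x i = 0) :
    x ∈ W b wt 0 := by
  rw [← b.sum_repr x]
  refine Submodule.sum_mem _ fun i _ => ?_
  by_cases hi : dgr wt i = 0
  · exact Submodule.smul_mem _ _ (Submodule.subset_span ⟨i, dgr_zero hR hi, rfl⟩)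
  · rw [h1 i hi, zero_smul]; exact Submodule.zero_mem _

theorem W0_mem (hR : Rt b wt E F H) {h₀ : L} (h0 : Eg b h₀ (dgr wt)) {x : L}
    (hx : x ∈ W b wt 0) : x ∈ egS k h₀ {0} := by
  have h1 : W b wt 0 ≤ egS k h₀ {0} := by
    rw [W, Submodule.span_le]
    rintro _ ⟨i, hi, rfl⟩
    refine h0.b_mem ?_
    rw [Set.mem_singleton_iff, dgr, hi]
    simp
  exact h1 hx

variable [Module.Finite k L]

/-- the stabiliser of the two opposite parabolics -/
structure Lv (h₀ : L) (m m' : Module.End k L) : Prop where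
  au : Au m m'
  a1 : ∀ x ∈ egS k h₀ (Set.Ici 0), m x ∈ egS k h₀ (Set.Ici 0)
  a2 : ∀ x ∈ egS k h₀ (Set.Ici 0), m' x ∈ egS k h₀ (Set.Ici 0)
  a3 : ∀ x ∈ egS k h₀ (Set.Iic 0), m x ∈ egS k h₀ (Set.Iic 0)
  a4 : ∀ x ∈ egS k h₀ (Set.Iic 0), m' x ∈ egS k h₀ (Set.Iic 0)

theorem Lv.symm {h₀ : L} {m m' : Module.End k L} (hm : Lv h₀ m m') : Lv h₀ m' m :=
  ⟨hm.au.symm, hm.a2, hm.a1, hm.a4, hm.a3⟩

theorem Lv.zero {h₀ : L} {m m' : Module.End k L} (hm : Lv h₀ m m') (h0 : Eg b h₀ (dgr wt))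
    {x : L} (hx : x ∈ egS k h₀ {0}) (i : Fin n) (hi : dgr wt i ≠ 0) : b.repr (m x) i = 0 := by
  rcases lt_or_gt_of_ne hi with h | h
  · exact h0.egS_iff.1 (hm.a1 x (egS_mono (by simp) hx)) i (by simp only [Set.mem_Ici]; omega)
  · exact h0.egS_iff.1 (hm.a3 x (egS_mono (by simp) hx)) i (by simp only [Set.mem_Iic]; omega)

theorem Lv.W0 {h₀ : L} {m m' : Module.End k L} (hm : Lv h₀ m m') (hR : Rt b wt E F H)
    (h0 : Eg b h₀ (dgr wt)) {x : L} (hx : x ∈ W b wt 0) : m x ∈ W b wt 0 :=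
  mem_W0 hR (hm.zero h0 (W0_mem hR h0 hx))

theorem Lv.aux [LieAlgebra.IsKilling k L] {h₀ : L} {m m' : Module.End k L} (hm : Lv h₀ m m')
    (hR : Rt b wt E F H) (h0 : Eg b h₀ (dgr wt)) : (∃ c : Fin r → ℚ,
      ∀ i l, b.repr (m (b l)) i ≠ 0 → (dgr wt l : ℚ) = ∑ j, (wt i j : ℚ) * c j) ∧
      ∀ x ∈ egS k h₀ {1}, m x ∈ egS k h₀ {1} := by
  have hspl : Spl k (m h₀) := by
    rw [Spl, eq_top_iff]
    intro x _
    rw [← hm.au.r_apply x, ← b.sum_repr (m' x), map_sum]
    refine Submodule.sum_mem _ fun i _ => ?_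
    rw [map_smul]
    refine Submodule.smul_mem _ _ ?_
    refine (le_iSup (fun j : ℤ => egs k (m h₀) j) (dgr wt i)) ?_
    rw [mem_egs, ← hm.au.lie, h0 i, map_smul]
  obtain ⟨c, hc⟩ := hR.max (m h₀) (mem_W0 hR (hm.zero h0 h0.self)) hspl
  have hA : ∀ i l, b.repr (m (b l)) i ≠ 0 → (dgr wt l : ℚ) = ∑ j, (wt i j : ℚ) * c j := by
    intro i l hil
    have h1 := repr_lie hc (m (b l)) i
    rw [← hm.au.lie, h0 l, map_smul, map_smul, Finsupp.smul_apply, smul_eq_mul] at h1
    have h2 := mul_right_cancel₀ hil h1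
    have h3 : (((dgr wt l : ℤ) : ℚ) : k) = ((∑ j, (wt i j : ℚ) * c j : ℚ) : k) := by
      rw [Rat.cast_intCast]; exact h2
    exact Rat.cast_injective h3
  have hpos : ∀ i l, 0 < dgr wt l → b.repr (m (b l)) i ≠ 0 → 0 < dgr wt i := by
    intro i l hl hil
    by_contra hi
    apply hil
    have h1 := hm.au.map_Ioi h0.spl hm.a2 (h0.b_mem (S := Set.Ioi 0) hl)
    exact h0.egS_iff.1 h1 i hi
  have hB : ∀ a, 1 ≤ c a := by
    intro a
    obtain ⟨i, hi⟩ := exists_ia hR a
    have hdi : dgr wt i = 1 := by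
      rw [dgr, hi, Finset.sum_pi_single']; simp
    have h1 : m' (b i) ∈ egS k h₀ (Set.Ioi 0) := hm.au.symm.map_Ioi h0.spl hm.a1
      (h0.b_mem (S := Set.Ioi 0) (by rw [Set.mem_Ioi, hdi]; exact one_pos))
    obtain ⟨l, hl, hl'⟩ := exists_l (b := b) m (x := m' (b i)) (i := i) (by
      rw [hm.au.r_apply]; simp)
    have h2 : 0 < dgr wt l := by
      by_contra h3
      exact hl (h0.egS_iff.1 h1 l h3)
    have h4 := hA i l hl'
    rw [hi, Finset.sum_eq_single a (fun j _ hj => by rw [Pi.single_eq_of_ne hj]; simp)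
      (by simp)] at h4
    rw [Pi.single_eq_same] at h4
    have h5 : (1 : ℚ) ≤ dgr wt l := by exact_mod_cast h2
    rw [h4] at h5
    simpa using h5
  have hC : ∀ i l, 0 < dgr wt l → b.repr (m (b l)) i ≠ 0 → dgr wt i ≤ dgr wt l := by
    intro i l hl hil
    have h1 := hpos i l hl hil
    have h2 : ∀ a, 0 ≤ wt i a := by
      rcases hR.sgn i with h | h
      · exact h
      · exfalso
        have : dgr wt i ≤ 0 := Finset.sum_nonpos fun a _ => h a
        omega
    have h3 : (dgr wt i : ℚ) ≤ dgr wt l := by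
      rw [hA i l hil, dgr]
      push_cast
      refine Finset.sum_le_sum fun a _ => ?_
      have h4 : (0 : ℚ) ≤ wt i a := by exact_mod_cast h2 a
      nlinarith [hB a]
    exact_mod_cast h3
  refine ⟨⟨c, hA⟩, fun x hx => ?_⟩
  rw [h0.egS_iff] at hx ⊢
  intro i hi
  by_contra hn
  obtain ⟨l, hl, hl'⟩ := exists_l m hn
  have h1 : dgr wt l = 1 := by
    by_contra h2
    exact hl (hx l h2)
  have h2 := hpos i l (by omega) hl'
  have h3 := hC i l (by omega) hl'
  apply hi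
  rw [Set.mem_singleton_iff]
  omega

/-- **the Levi factor preserves the principal grading** -/
theorem Lv.pres [LieAlgebra.IsKilling k L] {h₀ : L} {m m' : Module.End k L} (hm : Lv h₀ m m')
    (hR : Rt b wt E F H) (h0 : Eg b h₀ (dgr wt)) {i l : Fin n}
    (hil : b.repr (m (b l)) i ≠ 0) : dgr wt l = dgr wt i := by
  obtain ⟨⟨c, hA⟩, h1⟩ := hm.aux hR h0
  obtain ⟨-, h2⟩ := hm.symm.aux hR h0
  have hc : ∀ a, c a = 1 := by
    intro a
    obtain ⟨i, hi⟩ := exists_ia hR a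
    have hdi : dgr wt i = 1 := by
      rw [dgr, hi, Finset.sum_pi_single']; simp
    have h3 := h2 (b i) (h0.b_mem (S := {1}) hdi)
    obtain ⟨l, hl, hl'⟩ := exists_l (b := b) m (x := m' (b i)) (i := i) (by
      rw [hm.au.r_apply]; simp)
    have h4 : dgr wt l = 1 := by
      by_contra h5
      exact hl (h0.egS_iff.1 h3 l h5)
    have h5 := hA i l hl'
    rw [hi, h4, Finset.sum_eq_single a (fun j _ hj => by rw [Pi.single_eq_of_ne hj]; simp)
      (by simp)] at h5
    rw [Pi.single_eq_same] at h5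
    push_cast at h5
    linarith
  have h3 := hA i l hil
  have h4 : (dgr wt l : ℚ) = dgr wt i := by
    rw [h3, dgr]
    push_cast
    exact Finset.sum_congr rfl fun a _ => by rw [hc a, mul_one]
  exact_mod_cast h4

end Vale.Agent.P092.H710.Rp
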