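import Vale.Agent.P092.H710.Rp.Grd

/-!
P092, project RP, block P7 (helper710), part 8: `z` is bounded in terms of `exp (ad z) h - h`.
-/

set_option linter.all false

open Module Matrix

namespace Vale.Agent.P092.H710.Rp

open Vale.Agent.P092.H213.Rp Vale.Agent.P092.H542.Rp

section alg

variable {k L : Type} [Field k] [CharZero k] [LieRing L] [LieAlgebra k L] {n : ℕ}
  {b : Basis (Fin n) k L} {h : L} {d : Fin n → ℤ}

theorem Eg.pow_sub (hE : Eg b h d) {z y : L} (hz : z ∈ egS k h (Set.Iio 0))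
    (hy : y ∈ egS k h (Set.Iio 0)) {j : ℕ} (hr : z - y ∈ egS k h (Set.Iic (-((j : ℤ) + 1)))) (m : ℕ) :
    ((LieAlgebra.ad k L z) ^ (m + 1)) h - ((LieAlgebra.ad k L y) ^ (m + 1)) h ∈
      egS k h (Set.Iic (-((j : ℤ) + 1) - m)) := by
  have h0 : h ∈ egS k h (Set.Iic 0) := egS_mono (by simp) hE.self
  induction m with
  | zero =>
    simp only [zero_add, pow_one, LieAlgebra.ad_apply, ← sub_lie]
    refine lie_mem_egS (fun i hi l hl => ?_) hr h0
    simp only [Set.mem_Iic, Nat.cast_zero] at *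
    omega
  | succ m ih =>
    rw [pow_succ' _ (m + 1), pow_succ' _ (m + 1), Module.End.mul_apply, Module.End.mul_apply,
      LieAlgebra.ad_apply, LieAlgebra.ad_apply]
    have e : ⁅z, ((LieAlgebra.ad k L z) ^ (m + 1)) h⁆ - ⁅y, ((LieAlgebra.ad k L y) ^ (m + 1)) h⁆ =
        ⁅z - y, ((LieAlgebra.ad k L z) ^ (m + 1)) h⁆ +
        ⁅y, ((LieAlgebra.ad k L z) ^ (m + 1)) h - ((LieAlgebra.ad k L y) ^ (m + 1)) h⁆ := by
      rw [sub_lie, lie_sub]; abel
    rw [e]
    refine Submodule.add_mem _ ?_ ?_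
    · refine lie_mem_egS (fun i hi l hl => ?_) hr (hE.ad_pow hz 0 h0 (m + 1))
      simp only [Set.mem_Iic, Nat.cast_add, Nat.cast_one] at *
      omega
    · refine lie_mem_egS (fun i hi l hl => ?_) hy ih
      simp only [Set.mem_Iic, Set.mem_Iio, Nat.cast_add, Nat.cast_one] at *
      omega

theorem Eg.step (hE : Eg b h d) {z y : L} (hz : z ∈ egS k h (Set.Iio 0))
    (hy : y ∈ egS k h (Set.Iio 0)) {j : ℕ} (hr : z - y ∈ egS k h (Set.Iic (-((j : ℤ) + 1))))
    {i : Fin n} (hi : d i = -((j : ℤ) + 1)) :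
    b.repr (eu k z h) i - b.repr (eu k y h) i = ((j : k) + 1) * b.repr (z - y) i := by
  have hn : finrank k L = n := by rw [finrank_eq_card_basis b, Fintype.card_fin]
  obtain ⟨N, rfl⟩ : ∃ N, n = N + 1 := ⟨n - 1, by have := i.2; omega⟩
  have e : eu k z h - eu k y h = ∑ m ∈ Finset.range N, (((m + 2).factorial : k)⁻¹) •
      (((LieAlgebra.ad k L z) ^ (m + 1 + 1)) h - ((LieAlgebra.ad k L y) ^ (m + 1 + 1)) h) +
      ⁅z - y, h⁆ := by
    rw [eu, eu, H213.Rp.ex, H213.Rp.ex, hn, LinearMap.sum_apply, LinearMap.sum_apply,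
      ← Finset.sum_sub_distrib, Finset.sum_range_succ', Finset.sum_range_succ']
    simp only [LinearMap.smul_apply, ← smul_sub]
    simp
  rw [← Finsupp.sub_apply, ← map_sub, e, map_add, Finsupp.add_apply, map_sum,
    Finsupp.coe_finset_sum, Finset.sum_apply, Finset.sum_eq_zero, zero_add, ← lie_skew, map_neg,
    Finsupp.neg_apply, hE.repr, hi]
  · push_cast; ring
  · intro m _
    rw [map_smul, Finsupp.smul_apply, hE.egS_iff.1 (hE.pow_sub hz hy hr (m + 1)) i (by
      simp only [Set.mem_Iic, Nat.cast_add, Nat.cast_one]; omega), smul_zero]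

end alg

section nrm

variable {k : Type} [NontriviallyNormedField k] [CharZero k] {L : Type} [LieRing L]
  [LieAlgebra k L] {n : ℕ} {b : Basis (Fin n) k L} {h : L} {d : Fin n → ℤ}

theorem Eg.rec_bound (hE : Eg b h d) (K : ℝ) : ∃ C : ℝ, 0 ≤ C ∧ ∀ z ∈ egS k h (Set.Iio 0),
    nm b (eu k z h - h) ≤ K → nm b z ≤ C := by
  classical
  have key : ∀ j : ℕ, ∃ C : ℝ, 0 ≤ C ∧ ∀ z ∈ egS k h (Set.Iio 0), nm b (eu k z h - h) ≤ K →
      ∀ i, -(j : ℤ) ≤ d i → ‖b.repr z i‖ ≤ C := by
    intro j
    induction j with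
    | zero =>
      refine ⟨0, le_rfl, fun z hz _ i hi => ?_⟩
      rw [hE.egS_iff.1 hz i (by simp only [Set.mem_Iio]; push_cast at hi; omega), norm_zero]
    | succ j ih =>
      obtain ⟨C, hC, hj⟩ := ih
      obtain ⟨C', hC', h'⟩ := eu_bound b C
      have hpos : 0 ≤ ‖((j : k) + 1)⁻¹‖ * (|K| + (C' * nm b h + nm b h)) :=
        mul_nonneg (norm_nonneg _) (add_nonneg (abs_nonneg _)
          (add_nonneg (mul_nonneg hC' (nm_nonneg b _)) (nm_nonneg b _)))
      refine ⟨max C (‖((j : k) + 1)⁻¹‖ * (|K| + (C' * nm b h + nm b h))),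
        le_max_of_le_left hC, fun z hz hK i hi => ?_⟩
      by_cases hi' : -(j : ℤ) ≤ d i
      · exact (hj z hz hK i hi').trans (le_max_left _ _)
      have hdi : d i = -((j : ℤ) + 1) := by push_cast at hi; omega
      let y : L := b.equivFun.symm fun i => if -(j : ℤ) ≤ d i then b.repr z i else 0
      have hyr : ∀ i, b.repr y i = if -(j : ℤ) ≤ d i then b.repr z i else 0 := by
        intro i
        have := congrFun (b.equivFun.apply_symm_apply
          (fun i => if -(j : ℤ) ≤ d i then b.repr z i else 0)) i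
        rw [Basis.equivFun_apply] at this
        exact this
      have hy : y ∈ egS k h (Set.Iio 0) := by
        rw [hE.egS_iff] at hz ⊢
        intro i hi
        rw [hyr i, hz i hi]
        simp
      have hyn : nm b y ≤ C := nm_le b hC fun i => by
        rw [hyr i]
        split_ifs with h1
        · exact hj z hz hK i h1
        · rw [norm_zero]; exact hC
      have hr : z - y ∈ egS k h (Set.Iic (-((j : ℤ) + 1))) := by
        rw [hE.egS_iff]
        intro i hi
        rw [map_sub, Finsupp.sub_apply, hyr i, if_pos (by simp only [Set.mem_Iic] at hi; omega),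
          sub_self]
      have h1 := hE.step hz hy hr hdi
      have h2 : b.repr z i = ((j : k) + 1)⁻¹ *
          (b.repr (eu k z h - h) i - b.repr (eu k y h - h) i) := by
        have h3 : ((j : k) + 1) ≠ 0 := by exact_mod_cast Nat.succ_ne_zero j
        rw [map_sub, map_sub, Finsupp.sub_apply, Finsupp.sub_apply, sub_sub_sub_cancel_right, h1,
          map_sub, Finsupp.sub_apply, hyr i, if_neg hi', sub_zero, ← mul_assoc, inv_mul_cancel₀ h3,
          one_mul]
      rw [h2, norm_mul]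
      refine le_trans (mul_le_mul_of_nonneg_left ?_ (norm_nonneg _)) (le_max_right _ _)
      refine (norm_sub_le _ _).trans (add_le_add ?_ ?_)
      · exact (coord_le b _ i).trans (hK.trans (le_abs_self K))
      · refine (coord_le b _ i).trans ((nm_sub_le b _ _).trans (add_le_add ?_ le_rfl))
        exact h' y hyn h
  obtain ⟨D, hD⟩ : ∃ D : ℕ, ∀ i, -(D : ℤ) ≤ d i := by
    refine ⟨∑ i, (d i).natAbs, fun i => ?_⟩
    have h1 : (d i).natAbs ≤ ∑ i, (d i).natAbs :=
      Finset.single_le_sum (f := fun i => (d i).natAbs) (fun _ _ => Nat.zero_le _)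
        (Finset.mem_univ i)
    omega
  obtain ⟨C, hC, h1⟩ := key D
  exact ⟨C, hC, fun z hz hK => nm_le b hC fun i => h1 z hz hK i (hD i)⟩

end nrm

end Vale.Agent.P092.H710.Rp
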