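import Vale.Agent.P092.H710.Rp.Thr
import Vale.Agent.P092.H710.Rp.Rec
import Vale.Agent.P092.H710.Rp.Pres

/-!
P092, project RP, block P7 (helper710), part 9: the unipotent factors are bounded by the minors.
-/

set_option linter.all false

open Module Matrix

namespace Vale.Agent.P092.H710.Rp

open Vale.Agent.P092.H213.Rp Vale.Agent.P092.H542.Rp

section alg

variable {k L : Type} [Field k] [CharZero k] [LieRing L] [LieAlgebra k L] {n : ℕ}
  (b : Basis (Fin n) k L) {h : L} {d : Fin n → ℤ} {D : ℕ}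

/-- the product of the leading minors of `T` -/
noncomputable def Dl (d : Fin n → ℤ) (D : ℕ) (T : Module.End k L) : k :=
  Del (clt d D) (et d D) (LinearMap.toMatrix b b T)

variable {b}

theorem toM_mul (S T : Module.End k L) : LinearMap.toMatrix b b (S * T) =
    LinearMap.toMatrix b b S * LinearMap.toMatrix b b T := LinearMap.toMatrix_mul b S T

theorem Eg.low_mul (hE : Eg b h d) {z : L} (hz : z ∈ egS k h (Set.Iio 0)) (T : Module.End k L) :
    Dl b d D (eu k z * T) = Dl b d D T := by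
  have h1 : Del (clt d D) (et d D) (LinearMap.toMatrix b b (eu k z)) = 1 :=
    Del_unip (blk d D) d _ (fun i l hil => hE.low_zero hz hil) fun i l hil => hE.low_diag hz hil
  rw [Dl, toM_mul, Del_mul_left (blk d D), h1, one_mul, Dl]
  intro c i l h1 h2; exact hE.low_zero hz (by omega)

theorem Eg.mul_up (hE : Eg b h d) {z : L} (hz : z ∈ egS k h (Set.Ioi 0)) (T : Module.End k L) :
    Dl b d D (T * eu k z) = Dl b d D T := by
  have h1 : Del (clt d D) (et d D) (LinearMap.toMatrix b b (eu k z)) = 1 :=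
    Del_unip (blk d D) (fun i => -d i) _ (fun i l hil => hE.up_zero hz (by omega)) fun i l hil =>
      hE.up_diag hz (by omega)
  rw [Dl, toM_mul, Del_mul_right (blk d D), h1, mul_one, Dl]
  intro c i l h1 h2; exact hE.up_zero hz (by omega)

theorem mul_pres {m : Module.End k L} (hm : ∀ i l, b.repr (m (b l)) i ≠ 0 → d l = d i)
    (T : Module.End k L) : Dl b d D (T * m) = Dl b d D T * Dl b d D m := by
  rw [Dl, toM_mul, Del_mul_right (blk d D), Dl, Dl]
  intro c i l h1 h2
  rw [LinearMap.toMatrix_apply]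
  by_contra hn
  have := hm i l hn
  omega

theorem pres_mul {m : Module.End k L} (hm : ∀ i l, b.repr (m (b l)) i ≠ 0 → d l = d i)
    (T : Module.End k L) : Dl b d D (m * T) = Dl b d D m * Dl b d D T := by
  rw [Dl, toM_mul, Del_mul_left (blk d D), Dl, Dl]
  intro c i l h1 h2
  rw [LinearMap.toMatrix_apply]
  by_contra hn
  have := hm i l hn
  omega

theorem Eg.tr (hE : Eg b h d) (hD : ∀ i, |d i| ≤ D) {y : L} (hy : Nil k y) :
    ∑ j : Jt d D, LinearMap.toMatrix b b (LieAlgebra.ad k L y) (et d D j) (et d D j) =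
      killingForm k L h y := by
  rw [sum_et d D hD fun i => LinearMap.toMatrix b b (LieAlgebra.ad k L y) i i]
  have h1 : LinearMap.trace k L (LieAlgebra.ad k L y) = 0 :=
    (LinearMap.isNilpotent_trace_of_isNilpotent hy).eq_zero
  rw [LinearMap.trace_eq_matrix_trace k b, Matrix.trace] at h1
  simp only [Matrix.diag_apply] at h1
  rw [LieModule.traceForm_apply_apply, LinearMap.trace_eq_matrix_trace k b, Matrix.trace]
  have h2 : ∀ i, ((d i : k) + D + 1) * LinearMap.toMatrix b b (LieAlgebra.ad k L y) i i =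
      (LinearMap.toMatrix b b (LieModule.toEnd k L L h ∘ₗ LieModule.toEnd k L L y)).diag i +
      ((D : k) + 1) * LinearMap.toMatrix b b (LieAlgebra.ad k L y) i i := by
    intro i
    have h3 : (LinearMap.toMatrix b b (LieModule.toEnd k L L h ∘ₗ LieModule.toEnd k L L y)).diag i =
        (d i : k) * LinearMap.toMatrix b b (LieAlgebra.ad k L y) i i := by
      rw [Matrix.diag_apply, LinearMap.toMatrix_apply, LinearMap.toMatrix_apply]
      exact hE.repr _ _
    rw [h3]; ring
  rw [Finset.sum_congr rfl fun i _ => h2 i, Finset.sum_add_distrib, ← Finset.mul_sum, h1, mul_zero,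
    add_zero]

theorem isCompl_of_Dl (hE : Eg b h d) (hD : ∀ i, |d i| ≤ D) {g g' : Module.End k L} (hg : Au g g')
    (h0 : Dl b d D g ≠ 0) : IsCompl ((egS k h (Set.Ici 0)).map g) (egS k h (Set.Iio 0)) := by
  haveI : Module.Finite k L := Module.Finite.of_basis b
  have h1 : Disjoint ((egS k h (Set.Ici 0)).map g) (egS k h (Set.Iio 0)) := by
    rw [Submodule.disjoint_def]
    rintro _ ⟨x, hx, rfl⟩ hgx
    have hx' := hE.egS_iff.1 hx
    have hgx' := hE.egS_iff.1 hgx
    have h2 := Del_inj (blk d D) h0 (⟨0, by simp⟩ : Th D) (w := fun i => b.repr x i) (fun i hi =>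
      hx' i hi) (fun i hi => ?_)
    · have h3 : x = 0 := by
        apply b.repr.injective
        ext i
        rw [congrFun h2 i]; simp
      rw [h3, map_zero]
    · have h3 : LinearMap.toMatrix b b g *ᵥ (fun i => b.repr x i) = fun i => b.repr (g x) i :=
        LinearMap.toMatrix_mulVec_repr b b g x
      rw [h3]
      exact hgx' i (by simp only [Set.mem_Iio, not_lt]; exact hi)
  rw [Submodule.isCompl_iff_disjoint _ _ ?_]
  · exact h1
  · have h2 := Submodule.finrank_add_eq_of_isCompl (isCompl_egS hE.spl isCompl_Ici_Iio)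
    rw [← h2]
    refine add_le_add (le_of_eq ?_) le_rfl
    have hinj : Function.Injective g := fun x y hxy => by
      rw [← hg.l_apply x, ← hg.l_apply y, hxy]
    exact (Submodule.equivMapOfInjective g hinj _).finrank_eq

end alg

section nrm

variable {k : Type} [NontriviallyNormedField k] [CharZero k] {L : Type} [LieRing L]
  [LieAlgebra k L] {n : ℕ} {b : Basis (Fin n) k L} {h : L} {d : Fin n → ℤ} {D : ℕ}

theorem toM_eu {N : ℕ} (hN : finrank k L = N + 1) (c : k) (y : L) :
    LinearMap.toMatrix b b (eu k (c • y)) =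
      mex (N + 1) (c • LinearMap.toMatrix b b (LieAlgebra.ad k L y)) := by
  have h1 : ∀ T : Module.End k L, LinearMap.toMatrix b b T = LinearMap.toMatrixAlgEquiv b T :=
    fun _ => rfl
  rw [eu, H213.Rp.ex, hN, h1, map_sum, mex, map_smul, h1, ← map_smul (LinearMap.toMatrixAlgEquiv b)]
  refine Finset.sum_congr rfl fun i _ => ?_
  rw [map_smul, map_pow]

theorem kil_bound (hE : Eg b h d) (hD : ∀ i, |d i| ≤ D) (hn : 0 < n) :
    ∃ (D' : ℕ) (C : ℝ), 0 ≤ C ∧ ∀ (y : L), Nil k y → ∀ K : ℝ,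
      (∀ i : Fin (D' + 1), ‖Dl b d D (eu k (((i : ℕ) : k) • y))‖ ≤ K) →
      ‖killingForm k L h y‖ ≤ C * K := by
  obtain ⟨N, rfl⟩ : ∃ N, n = N + 1 := ⟨n - 1, by omega⟩
  have hN : finrank k L = N + 1 := by rw [finrank_eq_card_basis b, Fintype.card_fin]
  obtain ⟨D', C, hC, h1⟩ := trace_bound (k := k) (blk d D) N
  refine ⟨D', C, hC, fun y hy K hK => ?_⟩
  rw [← hE.tr hD hy]
  refine h1 _ K fun i => ?_
  rw [← toM_eu hN]
  exact hK i

theorem kil_low [LieAlgebra.IsKilling k L] : ∃ C : ℝ, 0 ≤ C ∧ ∀ (x : L) (K : ℝ), 0 ≤ K →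
    (∀ l, ‖killingForm k L x (b l)‖ ≤ K) → nm b x ≤ C * K := by
  let φ : L →ₗ[k] (Fin n → k) := LinearMap.pi fun l => (killingForm k L).flip (b l)
  have hφ : Function.Injective φ := by
    rw [injective_iff_map_eq_zero]
    intro x hx
    have h1 : x ∈ LinearMap.ker (killingForm k L) := by
      rw [LinearMap.mem_ker]
      refine b.ext fun l => ?_
      exact congrFun hx l
    rw [LieAlgebra.IsKilling.ker_killingForm_eq_bot] at h1
    exact (Submodule.mem_bot k).1 h1
  obtain ⟨C, hC, h1⟩ := low_bound b φ hφ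
  refine ⟨C, hC, fun x K hK hx => (h1 x).trans (mul_le_mul_of_nonneg_left ?_ hC)⟩
  exact (pi_norm_le_iff_of_nonneg hK).2 hx

/-- the lower unipotent factor -/
theorem low_est [LieAlgebra.IsKilling k L] (hE : Eg b h d) (hD : ∀ i, |d i| ≤ D) (hn : 0 < n) :
    ∃ (D' : ℕ), ∀ K : ℝ, ∃ C : ℝ, 0 ≤ C ∧ ∀ z ∈ egS k h (Set.Iio 0),
      (∀ l, 0 < d l → ∀ i : Fin (D' + 1),
        ‖Dl b d D (eu k (((i : ℕ) : k) • b l) * eu k z)‖ ≤ K) → nm b z ≤ C := by
  haveI : Module.Finite k L := Module.Finite.of_basis b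
  obtain ⟨D', C, hC, h1⟩ := kil_bound hE hD hn
  obtain ⟨C1, hC1, h2⟩ := kil_low (b := b)
  refine ⟨D', fun K => ?_⟩
  obtain ⟨C2, hC2, h3⟩ := hE.rec_bound (C1 * (C * |K|))
  refine ⟨C2, hC2, fun z hz hK => h3 z hz (h2 _ _ (mul_nonneg hC (abs_nonneg K)) fun l => ?_)⟩
  have hnz : Nil k z := nil_neg hE.spl hz
  have hz' : -z ∈ egS k h (Set.Iio 0) := Submodule.neg_mem _ hz
  have hau : Au (eu k (-z)) (eu k z) := by
    have := Au.eu (Nil.neg hnz)
    rwa [neg_neg] at this
  rcases lt_or_ge 0 (d l) with hl | hl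
  · have hnl : Nil k (b l) := nil_pos hE.spl (hE.b_mem (S := Set.Ioi 0) hl)
    have h4 := h1 (eu k (-z) (b l)) (hau.nil hnl) |K| fun i => by
      refine le_trans (le_of_eq ?_) ((hK l hl i).trans (le_abs_self K))
      rw [← map_smul, ← hau.conj (Nil.smul hnl _), mul_assoc, hE.low_mul hz']
    rw [map_sub, LinearMap.sub_apply, killing_egS (S := {0}) (T := {d l}) (fun i hi j hj => by
      rw [Set.mem_singleton_iff] at hi hj; omega) hE.self (hE.b_mem (S := {d l}) rfl), sub_zero]
    have h5 : killingForm k L (eu k z h) (b l) = killingForm k L h (eu k (-z) (b l)) := by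
      rw [← hau.symm.killing h (eu k (-z) (b l)), hau.symm.r_apply]
    rw [h5]
    exact h4
  · rw [killing_egS (S := Set.Iio 0) (T := Set.Iic 0) (fun i hi j hj => by
      simp only [Set.mem_Iio, Set.mem_Iic] at hi hj; omega)
      (hE.ex_sub hz 0 (egS_mono (by simp) hE.self)) (hE.b_mem (S := Set.Iic 0) hl), norm_zero]
    exact mul_nonneg hC (abs_nonneg K)

/-- the upper unipotent factor -/
theorem up_est [LieAlgebra.IsKilling k L] (hE : Eg b h d) (hD : ∀ i, |d i| ≤ D) (hn : 0 < n) :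
    ∃ (D' : ℕ), ∀ K : ℝ, ∃ C : ℝ, 0 ≤ C ∧ ∀ z ∈ egS k h (Set.Ioi 0),
      (∀ l, d l < 0 → ∀ i : Fin (D' + 1),
        ‖Dl b d D (eu k z * eu k (((i : ℕ) : k) • b l))‖ ≤ K) → nm b z ≤ C := by
  haveI : Module.Finite k L := Module.Finite.of_basis b
  obtain ⟨D', C, hC, h1⟩ := kil_bound hE hD hn
  obtain ⟨C1, hC1, h2⟩ := kil_low (b := b)
  refine ⟨D', fun K => ?_⟩
  obtain ⟨C2, hC2, h3⟩ := hE.neg.rec_bound (C1 * (C * |K|))
  refine ⟨C2, hC2, fun z hz hK => ?_⟩
  have hz' : -z ∈ egS k h (Set.Ioi 0) := Submodule.neg_mem _ hz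
  have hz'' : -z ∈ egS k (-h) (Set.Iio 0) := by rwa [egS_neg_Iio]
  rw [← nm_neg b z]
  refine h3 (-z) hz'' ?_
  have e : eu k (-z) (-h) - -h = -(eu k (-z) h - h) := by rw [map_neg]; abel
  rw [e, nm_neg]
  refine h2 _ _ (mul_nonneg hC (abs_nonneg K)) fun l => ?_
  have hnz : Nil k z := nil_pos hE.spl hz
  have hau : Au (eu k z) (eu k (-z)) := Au.eu hnz
  rcases lt_or_ge (d l) 0 with hl | hl
  · have hnl : Nil k (b l) := nil_neg hE.spl (hE.b_mem (S := Set.Iio 0) hl)
    have h4 := h1 (eu k z (b l)) (hau.nil hnl) |K| fun i => by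
      refine le_trans (le_of_eq ?_) ((hK l hl i).trans (le_abs_self K))
      rw [← map_smul, ← hau.conj (Nil.smul hnl _), hE.mul_up hz']
    rw [map_sub, LinearMap.sub_apply, killing_egS (S := {0}) (T := {d l}) (fun i hi j hj => by
      rw [Set.mem_singleton_iff] at hi hj; omega) hE.self (hE.b_mem (S := {d l}) rfl), sub_zero]
    have h5 : killingForm k L (eu k (-z) h) (b l) = killingForm k L h (eu k z (b l)) := by
      rw [← hau.symm.killing h (eu k z (b l)), hau.symm.r_apply]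
    rw [h5]
    exact h4
  · have h6 : eu k (-z) h - h ∈ egS k h (Set.Ioi 0) := by
      have h7 := hE.neg.ex_sub hz'' 0 (Submodule.neg_mem _ (egS_mono (by simp) hE.neg.self))
      rw [neg_neg, egS_neg_Iio] at h7
      exact h7
    rw [killing_egS (S := Set.Ioi 0) (T := Set.Ici 0) (fun i hi j hj => by
      simp only [Set.mem_Ioi, Set.mem_Ici] at hi hj; omega) h6
      (hE.b_mem (S := Set.Ici 0) hl), norm_zero]
    exact mul_nonneg hC (abs_nonneg K)

end nrm

end Vale.Agent.P092.H710.Rp
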