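import Vale.Agent.P092.H710.Rp.Lin
import Mathlib.RingTheory.Noetherian.Basic
import Mathlib.LinearAlgebra.FiniteDimensional.Basic

/-!
P092, project RP, block P7 (helper710), part 3: finitely many translates dominate all translates.
-/

set_option linter.all false

open Matrix

namespace Vale.Agent.P092.H710.Rp

section fin

variable {k : Type} [NormedField k] {V : Type} [AddCommGroup V] [Module k V]

theorem span_dom {ι : Type} (x : ι → V) (F : Set ι) {w : V} (hw : w ∈ Submodule.span k (x '' F)) :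
    ∃ C : ℝ, 0 ≤ C ∧ ∀ (Φ : V →ₗ[k] k) (K : ℝ), (∀ a ∈ F, ‖Φ (x a)‖ ≤ K) → 0 ≤ K → ‖Φ w‖ ≤ C * K := by
  induction hw using Submodule.span_induction with
  | mem w hw =>
    obtain ⟨a, ha, rfl⟩ := hw
    exact ⟨1, zero_le_one, fun Φ K hK _ => by rw [one_mul]; exact hK a ha⟩
  | zero => exact ⟨0, le_rfl, fun Φ K _ _ => by simp⟩
  | add w w' _ _ ih ih' =>
    obtain ⟨C, hC, h⟩ := ih
    obtain ⟨C', hC', h'⟩ := ih'
    refine ⟨C + C', add_nonneg hC hC', fun Φ K hK h0 => ?_⟩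
    rw [map_add, add_mul]
    exact (norm_add_le _ _).trans (add_le_add (h Φ K hK h0) (h' Φ K hK h0))
  | smul c w _ ih =>
    obtain ⟨C, hC, h⟩ := ih
    refine ⟨‖c‖ * C, mul_nonneg (norm_nonneg _) hC, fun Φ K hK h0 => ?_⟩
    rw [map_smul, smul_eq_mul, norm_mul, mul_assoc]
    exact mul_le_mul_of_nonneg_left (h Φ K hK h0) (norm_nonneg _)

theorem exists_fin [Module.Finite k V] {ι : Type} (x : ι → V) :
    ∃ F : Finset ι, ∀ i, x i ∈ Submodule.span k (x '' (F : Set ι)) := by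
  classical
  rcases isEmpty_or_nonempty ι with hι | hι
  · exact ⟨∅, fun i => isEmptyElim i⟩
  haveI : IsNoetherian k V := inferInstance
  have h1 : (Submodule.span k (Set.range x)).FG := IsNoetherian.noetherian _
  obtain ⟨s, hs, e⟩ := (Submodule.fg_span_iff_fg_span_finset_subset _).1 h1
  choose! y hy using fun v (hv : v ∈ (s : Set V)) => hs hv
  refine ⟨s.image y, fun i => ?_⟩
  have h2 : x i ∈ Submodule.span k (s : Set V) := by
    rw [← e]; exact Submodule.subset_span ⟨i, rfl⟩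
  refine Submodule.span_mono ?_ h2
  intro v hv
  exact ⟨y v, by simpa using ⟨v, hv, rfl⟩, hy v hv⟩

end fin

section grp

variable {k : Type} [NontriviallyNormedField k] {n : ℕ} {J : Type} [Fintype J] [DecidableEq J]
  {M : Type} [DecidableEq M] {G : Type} [Group G]

/-- evaluation at `e` after `T f` -/
def psi (e : J → Fin n) (f : Matrix (Fin n) (Fin n) k) : ((J → Fin n) → k) →ₗ[k] k :=
  (LinearMap.proj e).comp (T f)

theorem psi_apply (e : J → Fin n) (f : Matrix (Fin n) (Fin n) k) (w : (J → Fin n) → k) :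
    psi e f w = T f w e := rfl

/-- **finitely many translates dominate all translates** -/
theorem exists_dom (cl : J → M) (e : J → Fin n) (R : G → Matrix (Fin n) (Fin n) k) :
    ∃ F : Finset G, ∀ f f' : G, ∃ C : ℝ, 0 ≤ C ∧ ∀ (g : G) (K : ℝ), 0 ≤ K →
      (∀ a ∈ F, ∀ a' ∈ F, ‖Del cl e (R a * R g * R a')‖ ≤ K) →
      ‖Del cl e (R f * R g * R f')‖ ≤ C * K := by
  classical
  obtain ⟨F1, h1⟩ := exists_fin (k := k) fun g : G => T (R g) (tv cl e)
  obtain ⟨F2, h2⟩ := exists_fin (k := k) fun g : G => psi e (R g)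
  refine ⟨F1 ∪ F2, fun f f' => ?_⟩
  obtain ⟨C1, hC1, h3⟩ := span_dom _ _ (h1 f')
  obtain ⟨C2, hC2, h4⟩ := span_dom _ _ (h2 f)
  refine ⟨C2 * C1, mul_nonneg hC2 hC1, fun g K hK h => ?_⟩
  have h5 : ∀ a ∈ F2, ‖Del cl e (R a * R g * R f')‖ ≤ C1 * K := by
    intro a ha
    have h6 := h3 ((psi e (R a)).comp (T (R g))) K (fun a' ha' => ?_) hK
    · rw [Del_eq]; exact h6
    · rw [LinearMap.comp_apply, psi_apply, ← Del_eq]
      exact h a (Finset.mem_union_right _ ha) a' (Finset.mem_union_left _ ha')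
  have h7 := h4 ((LinearMap.applyₗ (T (R g) (T (R f') (tv cl e))))) (C1 * K) (fun a ha => ?_)
    (mul_nonneg hC1 hK)
  · rw [Del_eq, mul_assoc]; exact h7
  · show ‖psi e (R a) _‖ ≤ _
    rw [psi_apply, ← Del_eq]
    exact h5 a ha

/-- **a good translate** -/
theorem exists_good {cl : J → M} {e : J → Fin n} {S : M → Fin n → Prop} (hB : Blk cl e S)
    (R : G →* Matrix (Fin n) (Fin n) k) (Q : Finset G) : ∃ (F : Finset G) (C : ℝ), 0 ≤ C ∧
      ∀ g : G, ∃ a ∈ F, ∃ a' ∈ F, Del cl e (R (a * g * a')) ≠ 0 ∧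
      ∀ f ∈ Q, ∀ f' ∈ Q, ‖Del cl e (R f * R (a * g * a') * R f')‖ ≤
        C * ‖Del cl e (R (a * g * a'))‖ := by
  classical
  obtain ⟨F, hF⟩ := exists_dom cl e R
  choose C hC hd using hF
  let C0 : ℝ := ∑ f ∈ Q, ∑ f' ∈ Q, ∑ a ∈ F, ∑ a' ∈ F, C (f * a) (a' * f')
  refine ⟨F, C0, ?_, fun g => ?_⟩
  · exact Finset.sum_nonneg fun f _ => Finset.sum_nonneg fun f' _ => Finset.sum_nonneg fun a _ =>
      Finset.sum_nonneg fun a' _ => hC _ _
  let N : G × G → ℝ := fun p => ‖Del cl e (R p.1 * R g * R p.2)‖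
  have hne : (F ×ˢ F).Nonempty := by
    by_contra hn
    rw [Finset.not_nonempty_iff_eq_empty] at hn
    have h1 := hd g⁻¹ 1 g 0 le_rfl (fun a ha a' ha' => by
      have : (a, a') ∈ F ×ˢ F := Finset.mem_product.2 ⟨ha, ha'⟩
      rw [hn] at this; simp at this)
    rw [← map_mul, ← map_mul, inv_mul_cancel, one_mul, map_one, Del_one hB, norm_one,
      mul_zero] at h1
    linarith
  obtain ⟨⟨a, a'⟩, hm, hmax⟩ := Finset.exists_max_image (F ×ˢ F) N hne
  rw [Finset.mem_product] at hm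
  have hK : ∀ x ∈ F, ∀ x' ∈ F, ‖Del cl e (R x * R g * R x')‖ ≤ N (a, a') := fun x hx x' hx' =>
    hmax (x, x') (Finset.mem_product.2 ⟨hx, hx'⟩)
  have hN : N (a, a') = ‖Del cl e (R (a * g * a'))‖ := by
    show ‖Del cl e (R a * R g * R a')‖ = _
    rw [map_mul, map_mul]
  have hpos : 0 < N (a, a') := by
    by_contra h0
    have h0' : N (a, a') = 0 := le_antisymm (not_lt.1 h0) (norm_nonneg _)
    have h1 := hd g⁻¹ 1 g (N (a, a')) (norm_nonneg _) hK
    rw [← map_mul, ← map_mul, inv_mul_cancel, one_mul, map_one, Del_one hB, norm_one, h0',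
      mul_zero] at h1
    linarith
  refine ⟨a, hm.1, a', hm.2, ?_, fun f hf f' hf' => ?_⟩
  · rw [← norm_pos_iff, ← hN]; exact hpos
  · have h1 := hd (f * a) (a' * f') g (N (a, a')) (norm_nonneg _) hK
    have e1 : R f * R (a * g * a') * R f' = R (f * a) * R g * R (a' * f') := by
      simp only [map_mul, mul_assoc]
    rw [e1, ← hN]
    refine h1.trans (mul_le_mul_of_nonneg_right ?_ (norm_nonneg _))
    calc C (f * a) (a' * f') ≤ ∑ a' ∈ F, C (f * a) (a' * f') :=
          Finset.single_le_sum (f := fun a' => C (f * a) (a' * f')) (fun _ _ => hC _ _) hm.2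
      _ ≤ ∑ a ∈ F, ∑ a' ∈ F, C (f * a) (a' * f') :=
          Finset.single_le_sum (f := fun a => ∑ a' ∈ F, C (f * a) (a' * f'))
            (fun _ _ => Finset.sum_nonneg fun _ _ => hC _ _) hm.1
      _ ≤ ∑ f' ∈ Q, ∑ a ∈ F, ∑ a' ∈ F, C (f * a) (a' * f') :=
          Finset.single_le_sum (f := fun f' => ∑ a ∈ F, ∑ a' ∈ F, C (f * a) (a' * f'))
            (fun _ _ => Finset.sum_nonneg fun _ _ => Finset.sum_nonneg fun _ _ => hC _ _) hf'
      _ ≤ C0 := Finset.single_le_sum (f := fun f => ∑ f' ∈ Q, ∑ a ∈ F, ∑ a' ∈ F, C (f * a) (a' * f'))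
            (fun _ _ => Finset.sum_nonneg fun _ _ => Finset.sum_nonneg fun _ _ =>
              Finset.sum_nonneg fun _ _ => hC _ _) hf

end grp

end Vale.Agent.P092.H710.Rp
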