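import Vale.Agent.P092.H710.Rp.Nrm
import Vale.Agent.P092.H710.Rp.Span
import Vale.Agent.P092.H542.Rp.Dec

/-!
P092, project RP, block P7 (helper710), part 5: gradings in coordinates.
-/

set_option linter.all false

open Module Matrix

namespace Vale.Agent.P092.H710.Rp

open Vale.Agent.P092.H213.Rp Vale.Agent.P092.H542.Rp

section alg

variable {k L : Type} [Field k] [CharZero k] [LieRing L] [LieAlgebra k L] {n : ℕ}
  {b : Basis (Fin n) k L} {h : L} {d : Fin n → ℤ}

/-- `b` consists of eigenvectors of `ad h` with the eigenvalues `d` -/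
def Eg (b : Basis (Fin n) k L) (h : L) (d : Fin n → ℤ) : Prop :=
  ∀ i, ⁅h, b i⁆ = (d i : k) • b i

theorem Eg.neg (hE : Eg b h d) : Eg b (-h) (fun i => -d i) := by
  intro i
  rw [neg_lie, hE i]
  simp

theorem Eg.repr (hE : Eg b h d) (x : L) (l : Fin n) : b.repr ⁅h, x⁆ l = (d l : k) * b.repr x l := by
  conv_lhs => rw [← b.sum_repr x, lie_sum]
  simp only [lie_smul, hE _, map_sum, map_smul, Finsupp.coe_finset_sum, Finset.sum_apply,
    Finsupp.smul_apply, smul_eq_mul, Basis.repr_self, Finsupp.single_apply]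
  rw [Finset.sum_eq_single l]
  · simp; ring
  · intro i _ hi
    rw [if_neg hi]; simp
  · simp

theorem Eg.mem (hE : Eg b h d) (i : Fin n) : b i ∈ egs k h (d i) := mem_egs.2 (hE i)

theorem Eg.egS_iff (hE : Eg b h d) {S : Set ℤ} {x : L} :
    x ∈ egS k h S ↔ ∀ i, d i ∉ S → b.repr x i = 0 := by
  constructor
  · intro hx
    have h1 : egS k h S ≤
        (⨅ i : Fin n, ⨅ _ : d i ∉ S, LinearMap.ker (b.coord i) : Submodule k L) := by
      refine egS_le fun j hj y hy => ?_
      simp only [Submodule.mem_iInf, LinearMap.mem_ker, Basis.coord_apply]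
      intro i hi
      have h2 := hE.repr y i
      rw [mem_egs.1 hy, map_smul, Finsupp.smul_apply, smul_eq_mul] at h2
      have h3 : ((j : k) - d i) * b.repr y i = 0 := by rw [sub_mul, h2, sub_self]
      rcases mul_eq_zero.1 h3 with h4 | h4
      · exfalso
        apply hi
        have h5 : (j : k) = d i := by linear_combination h4
        have h6 : j = d i := by exact_mod_cast h5
        exact h6 ▸ hj
      · exact h4
    have h2 := h1 hx
    simp only [Submodule.mem_iInf, LinearMap.mem_ker, Basis.coord_apply] at h2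
    exact h2
  · intro hx
    rw [← b.sum_repr x]
    refine Submodule.sum_mem _ fun i _ => ?_
    by_cases hi : d i ∈ S
    · exact Submodule.smul_mem _ _ (egs_le hi (hE.mem i))
    · rw [hx i hi, zero_smul]; exact Submodule.zero_mem _

theorem Eg.b_mem (hE : Eg b h d) {S : Set ℤ} {i : Fin n} (hi : d i ∈ S) : b i ∈ egS k h S :=
  egs_le hi (hE.mem i)

theorem Eg.spl (hE : Eg b h d) : Spl k h := by
  rw [Spl, eq_top_iff]
  intro x _
  rw [← b.sum_repr x]
  refine Submodule.sum_mem _ fun i _ => Submodule.smul_mem _ _ ?_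
  exact (le_iSup (fun j : ℤ => egs k h j) (d i)) (hE.mem i)

theorem Eg.self (hE : Eg b h d) : h ∈ egS k h {0} := by
  rw [hE.egS_iff]
  intro i hi
  have h1 := hE.repr h i
  rw [lie_self, map_zero, Finsupp.zero_apply] at h1
  rcases mul_eq_zero.1 h1.symm with h2 | h2
  · exact absurd (by exact_mod_cast h2) hi
  · exact h2

/-- powers of `ad z` for `z` of negative degree -/
theorem Eg.ad_pow (hE : Eg b h d) {z : L} (hz : z ∈ egS k h (Set.Iio 0)) (c : ℤ) {x : L}
    (hx : x ∈ egS k h (Set.Iic c)) (m : ℕ) :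
    ((LieAlgebra.ad k L z) ^ m) x ∈ egS k h (Set.Iic (c - m)) := by
  induction m with
  | zero => simpa using hx
  | succ m ih =>
    rw [pow_succ', Module.End.mul_apply, LieAlgebra.ad_apply]
    refine lie_mem_egS (fun i hi j hj => ?_) hz ih
    simp only [Set.mem_Iio, Set.mem_Iic, Nat.cast_add, Nat.cast_one] at *
    omega

theorem Eg.ex_sub (hE : Eg b h d) {z : L} (hz : z ∈ egS k h (Set.Iio 0)) (c : ℤ) {x : L}
    (hx : x ∈ egS k h (Set.Iic c)) : eu k z x - x ∈ egS k h (Set.Iio c) := by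
  have h1 : eu k z x - x = ∑ i ∈ Finset.range (finrank k L), (((i + 1).factorial : k)⁻¹) •
      ((LieAlgebra.ad k L z) ^ (i + 1)) x := by
    rw [eu, H213.Rp.ex, LinearMap.sum_apply, Finset.sum_range_succ']
    simp [LinearMap.smul_apply]
  rw [h1]
  refine Submodule.sum_mem _ fun i _ => Submodule.smul_mem _ _ ?_
  refine egS_mono ?_ (hE.ad_pow hz c hx (i + 1))
  intro j hj
  simp only [Set.mem_Iio, Set.mem_Iic, Nat.cast_add, Nat.cast_one] at *
  omega

/-- the matrix of `eu z` -/
theorem Eg.low_zero (hE : Eg b h d) {z : L} (hz : z ∈ egS k h (Set.Iio 0)) {i l : Fin n}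
    (hil : d l < d i) : LinearMap.toMatrix b b (eu k z) i l = 0 := by
  rw [LinearMap.toMatrix_apply]
  have h1 := hE.ex_sub hz (d l) (hE.b_mem (S := Set.Iic (d l)) (Set.mem_Iic.2 le_rfl))
  have h2 := hE.egS_iff.1 h1 i (by simp only [Set.mem_Iio]; omega)
  rw [map_sub, Finsupp.sub_apply, Basis.repr_self, Finsupp.single_apply,
    if_neg (fun e => by rw [e] at hil; exact lt_irrefl _ hil), sub_zero] at h2
  exact h2

theorem Eg.low_diag (hE : Eg b h d) {z : L} (hz : z ∈ egS k h (Set.Iio 0)) {i l : Fin n}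
    (hil : d i = d l) : LinearMap.toMatrix b b (eu k z) i l = (1 : Matrix (Fin n) (Fin n) k) i l := by
  rw [LinearMap.toMatrix_apply]
  have h1 := hE.ex_sub hz (d l) (hE.b_mem (S := Set.Iic (d l)) (Set.mem_Iic.2 le_rfl))
  have h2 := hE.egS_iff.1 h1 i (by simp only [Set.mem_Iio]; omega)
  rw [map_sub, Finsupp.sub_apply, Basis.repr_self, Finsupp.single_apply, sub_eq_zero] at h2
  rw [h2, Matrix.one_apply]
  by_cases e : i = l
  · subst e; simp
  · rw [if_neg e, if_neg (fun e' => e e'.symm)]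

theorem Eg.up_zero (hE : Eg b h d) {z : L} (hz : z ∈ egS k h (Set.Ioi 0)) {i l : Fin n}
    (hil : d i < d l) : LinearMap.toMatrix b b (eu k z) i l = 0 := by
  refine hE.neg.low_zero ?_ (by simpa using hil)
  rw [egS_neg, neg_preimage_Iio]; exact hz

theorem Eg.up_diag (hE : Eg b h d) {z : L} (hz : z ∈ egS k h (Set.Ioi 0)) {i l : Fin n}
    (hil : d i = d l) : LinearMap.toMatrix b b (eu k z) i l = (1 : Matrix (Fin n) (Fin n) k) i l := by
  refine hE.neg.low_diag ?_ (by simpa using hil)
  rw [egS_neg, neg_preimage_Iio]; exact hz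

end alg

end Vale.Agent.P092.H710.Rp
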