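import Vale.Agent.P092.H710.Rp.Del

/-!
P092, project RP, block P7 (helper710), part 2: the linear coefficient of `s ↦ Del (exp (s Y))`.
-/

set_option linter.all false

open Matrix Polynomial

namespace Vale.Agent.P092.H710.Rp

section comm

variable {k : Type} [CommRing k] {n : ℕ} {J : Type} [Fintype J] [DecidableEq J] {M : Type}
  [DecidableEq M]

theorem coeff_one_det (A : Matrix J J k[X]) :
    (1 + (X : k[X]) • A).det.coeff 1 = A.trace.coeff 0 := by
  rw [Matrix.det_one_add_smul]
  simp only [coeff_add, coeff_one, coeff_mul_X_pow', coeff_mul_X]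
  norm_num

theorem B_add (cl : J → M) (e : J → Fin n) (g g' : Matrix (Fin n) (Fin n) k) (a : J → Fin n) :
    B cl e (g + g') a = B cl e g a + B cl e g' a := by
  ext j l
  simp only [B, Matrix.of_apply, Matrix.add_apply]
  split_ifs <;> simp

theorem B_smul (cl : J → M) (e : J → Fin n) (c : k) (g : Matrix (Fin n) (Fin n) k) (a : J → Fin n) :
    B cl e (c • g) a = c • B cl e g a := by
  ext j l
  simp only [B, Matrix.of_apply, Matrix.smul_apply, smul_eq_mul]
  split_ifs <;> simp

theorem Del_coeff_one {cl : J → M} {e : J → Fin n} {S : M → Fin n → Prop} (hB : Blk cl e S)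
    (P : Matrix (Fin n) (Fin n) k[X]) :
    (Del cl e (1 + (X : k[X]) • P)).coeff 1 = ∑ j, (P (e j) (e j)).coeff 0 := by
  rw [Del, B_add, B_smul, B_one hB, coeff_one_det, Matrix.trace, finset_sum_coeff]
  refine Finset.sum_congr rfl fun j _ => ?_
  simp [B, Matrix.diag_apply]

theorem Del_map {R S : Type} [CommRing R] [CommRing S] (φ : R →+* S) (cl : J → M) (e : J → Fin n)
    (P : Matrix (Fin n) (Fin n) R) : φ (Del cl e P) = Del cl e (P.map φ) := by
  rw [Del, RingHom.map_det, Del]
  congr 1
  ext j l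
  simp only [B, RingHom.mapMatrix_apply, Matrix.map_apply, Matrix.of_apply]
  split_ifs <;> simp

theorem Del_natDegree (cl : J → M) (e : J → Fin n) (P : Matrix (Fin n) (Fin n) k[X]) (d : ℕ)
    (hP : ∀ i l, (P i l).natDegree ≤ d) : (Del cl e P).natDegree ≤ Fintype.card J * d := by
  rw [Del, Matrix.det_apply]
  refine natDegree_sum_le_of_forall_le _ _ fun σ _ => ?_
  have h1 : ∀ q : k[X], (Equiv.Perm.sign σ • q).natDegree ≤ q.natDegree := by
    intro q
    rcases Int.units_eq_one_or (Equiv.Perm.sign σ) with h | h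
    · rw [h, one_smul]
    · rw [h, Units.neg_smul, one_smul, natDegree_neg]
  refine (h1 _).trans ((natDegree_prod_le _ _).trans ?_)
  calc _ ≤ ∑ i : J, d := by
        refine Finset.sum_le_sum fun i _ => ?_
        simp only [B, Matrix.of_apply]
        split_ifs
        · exact hP _ _
        · simp
    _ = _ := by rw [Finset.sum_const, smul_eq_mul]; rfl

end comm

section fld

variable {k : Type} [NontriviallyNormedField k] [CharZero k] {n : ℕ} {J : Type} [Fintype J]
  [DecidableEq J] {M : Type} [DecidableEq M]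

/-- the linear coefficient is bounded by finitely many values -/
theorem coeff_bound (D : ℕ) : ∃ C : ℝ, 0 ≤ C ∧ ∀ (p : k[X]), p.natDegree ≤ D → ∀ K : ℝ,
    (∀ i : Fin (D + 1), ‖p.eval ((i : ℕ) : k)‖ ≤ K) → ‖p.coeff 1‖ ≤ C * K := by
  let s : Fin (D + 1) → k := fun i => ((i : ℕ) : k)
  have hs : Function.Injective s := by
    intro i j h
    exact Fin.ext (Nat.cast_injective h)
  refine ⟨∑ i, ‖(Lagrange.basis Finset.univ s i).coeff 1‖,
    Finset.sum_nonneg fun i _ => norm_nonneg _, fun p hp K hK => ?_⟩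
  have h1 : p = Lagrange.interpolate Finset.univ s (fun i => p.eval (s i)) := by
    refine Lagrange.eq_interpolate (hs.injOn) ?_
    refine lt_of_le_of_lt degree_le_natDegree ?_
    rw [Finset.card_univ, Fintype.card_fin]
    exact_mod_cast Nat.lt_succ_of_le hp
  have h2 : p.coeff 1 = ∑ i, p.eval (s i) * (Lagrange.basis Finset.univ s i).coeff 1 := by
    conv_lhs => rw [h1]
    rw [Lagrange.interpolate_apply, finset_sum_coeff]
    refine Finset.sum_congr rfl fun i _ => ?_
    rw [coeff_C_mul]
  rw [h2, Finset.sum_mul]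
  refine (norm_sum_le _ _).trans (Finset.sum_le_sum fun i _ => ?_)
  rw [norm_mul, mul_comm]
  exact mul_le_mul_of_nonneg_left (hK i) (norm_nonneg _)

/-- the truncated exponential of a matrix -/
noncomputable def mex (n : ℕ) {m : ℕ} (Y : Matrix (Fin m) (Fin m) k) : Matrix (Fin m) (Fin m) k :=
  ∑ i ∈ Finset.range (n + 1), ((i.factorial : k)⁻¹) • Y ^ i

/-- **the trace of `Y` on the blocks is bounded by the minors of `exp (i Y)`, `i = 0..D`.** -/
theorem trace_bound {cl : J → M} {e : J → Fin n} {S : M → Fin n → Prop} (hB : Blk cl e S) (N : ℕ) :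
    ∃ (D : ℕ) (C : ℝ), 0 ≤ C ∧ ∀ (Y : Matrix (Fin n) (Fin n) k) (K : ℝ),
      (∀ i : Fin (D + 1), ‖Del cl e (mex (N + 1) (((i : ℕ) : k) • Y))‖ ≤ K) →
      ‖∑ j, Y (e j) (e j)‖ ≤ C * K := by
  obtain ⟨C, hC, h⟩ := coeff_bound (k := k) (Fintype.card J * (N + 1))
  refine ⟨Fintype.card J * (N + 1), C, hC, fun Y K hK => ?_⟩
  let P : Matrix (Fin n) (Fin n) k[X] := ∑ i ∈ Finset.range (N + 1),
    (X : k[X]) ^ i • (((((i + 1).factorial : k)⁻¹) • Y ^ (i + 1)).map Polynomial.C)
  have h1 : ∀ s : k, (1 + (X : k[X]) • P).map (Polynomial.evalRingHom s) = mex (N + 1) (s • Y) := by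
    intro s
    rw [mex, Finset.sum_range_succ']
    ext a b
    simp only [Matrix.map_apply, Matrix.add_apply, Matrix.smul_apply, smul_eq_mul, P,
      Matrix.sum_apply, coe_evalRingHom, eval_add, eval_mul, eval_X, eval_finset_sum, eval_pow,
      eval_C, pow_zero, Nat.factorial_zero, Nat.cast_one, inv_one, one_smul, Finset.mul_sum]
    rw [add_comm]
    congr 1
    · refine Finset.sum_congr rfl fun i _ => ?_
      rw [smul_pow, Matrix.smul_apply, smul_eq_mul]
      ring
    · simp [Matrix.one_apply]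
      split_ifs <;> simp
  have h2 : (Del cl e (1 + (X : k[X]) • P)).coeff 1 = ∑ j, Y (e j) (e j) := by
    rw [Del_coeff_one hB]
    refine Finset.sum_congr rfl fun j _ => ?_
    simp only [P, Matrix.sum_apply, finset_sum_coeff, Matrix.smul_apply, smul_eq_mul,
      Matrix.map_apply]
    rw [Finset.sum_eq_single 0]
    · simp
    · intro i _ hi
      rw [coeff_X_pow_mul']
      rw [if_neg (by omega)]
    · intro h; simp at h
  rw [← h2]
  refine h _ ?_ K fun i => ?_
  · refine Del_natDegree cl e _ (N + 1) fun a b => ?_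
    simp only [Matrix.add_apply, Matrix.smul_apply, smul_eq_mul, P, Matrix.sum_apply,
      Finset.mul_sum, Matrix.map_apply]
    refine (natDegree_add_le _ _).trans (max_le ?_ ?_)
    · simp only [Matrix.one_apply]
      split_ifs <;> simp
    · refine natDegree_sum_le_of_forall_le _ _ fun i hi => ?_
      rw [← mul_assoc, ← pow_succ']
      refine (natDegree_mul_C_le _ _).trans ?_
      rw [natDegree_X_pow]
      exact Finset.mem_range.1 hi
  · have h3 := Del_map (Polynomial.evalRingHom ((i : ℕ) : k)) cl e (1 + (X : k[X]) • P)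
    rw [coe_evalRingHom] at h3
    rw [h3, ← coe_evalRingHom, h1]
    exact hK i

end fld

end Vale.Agent.P092.H710.Rp
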