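import Vale.Agent.P092.H213.Rp.Defs
import Mathlib.LinearAlgebra.Basis.VectorSpace
import Mathlib.Analysis.Normed.Module.Basic
import Mathlib.LinearAlgebra.FiniteDimensional.Basic

/-!
P092, project RP, block P7 (helper710), part 4: the sup norm in a basis.
-/

set_option linter.all false

open Module

namespace Vale.Agent.P092.H710.Rp

open Vale.Agent.P092.H213.Rp

variable {k : Type} [NontriviallyNormedField k] {L : Type} [AddCommGroup L] [Module k L] {n : ℕ}
  (b : Basis (Fin n) k L)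

/-- the sup norm in the basis `b` -/
noncomputable def nm (x : L) : ℝ := ‖b.equivFun x‖

theorem nm_nonneg (x : L) : 0 ≤ nm b x := norm_nonneg _

theorem nm_add_le (x y : L) : nm b (x + y) ≤ nm b x + nm b y := by
  unfold nm; rw [map_add]; exact norm_add_le _ _

theorem nm_sub_le (x y : L) : nm b (x - y) ≤ nm b x + nm b y := by
  unfold nm; rw [map_sub]; exact norm_sub_le _ _

theorem nm_neg (x : L) : nm b (-x) = nm b x := by
  unfold nm; rw [map_neg]; exact norm_neg _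

theorem nm_smul (c : k) (x : L) : nm b (c • x) = ‖c‖ * nm b x := by
  unfold nm; rw [map_smul]; exact norm_smul _ _

theorem nm_zero : nm b (0 : L) = 0 := by
  unfold nm; rw [map_zero]; exact norm_zero

theorem nm_eq_zero {x : L} (h : nm b x = 0) : x = 0 := by
  unfold nm at h
  rw [norm_eq_zero] at h
  exact (LinearEquiv.map_eq_zero_iff _).1 h

theorem nm_pos {x : L} (h : x ≠ 0) : 0 < nm b x :=
  lt_of_le_of_ne (nm_nonneg b x) fun h' => h (nm_eq_zero b h'.symm)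

theorem coord_le (x : L) (i : Fin n) : ‖b.repr x i‖ ≤ nm b x := norm_le_pi_norm (b.equivFun x) i

theorem nm_le {x : L} {C : ℝ} (hC : 0 ≤ C) (h : ∀ i, ‖b.repr x i‖ ≤ C) : nm b x ≤ C :=
  (pi_norm_le_iff_of_nonneg hC).2 h

theorem nm_sum_le {ι : Type} (s : Finset ι) (f : ι → L) : nm b (∑ i ∈ s, f i) ≤ ∑ i ∈ s, nm b (f i) := by
  unfold nm; rw [map_sum]; exact norm_sum_le _ _

/-- linear maps are bounded -/
theorem lin_bound {V : Type} [SeminormedAddCommGroup V] [NormedSpace k V] (φ : L →ₗ[k] V) :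
    ∃ C : ℝ, 0 ≤ C ∧ ∀ x, ‖φ x‖ ≤ C * nm b x := by
  refine ⟨∑ i, ‖φ (b i)‖, Finset.sum_nonneg fun i _ => norm_nonneg _, fun x => ?_⟩
  conv_lhs => rw [← b.sum_repr x]
  rw [map_sum, Finset.sum_mul]
  refine (norm_sum_le _ _).trans (Finset.sum_le_sum fun i _ => ?_)
  rw [map_smul, norm_smul, mul_comm]
  exact mul_le_mul_of_nonneg_left (coord_le b x i) (norm_nonneg _)

theorem end_bound (T : L →ₗ[k] L) : ∃ C : ℝ, 0 ≤ C ∧ ∀ x, nm b (T x) ≤ C * nm b x :=
  lin_bound b (b.equivFun.toLinearMap ∘ₗ T)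

/-- injective linear maps are bounded below -/
theorem low_bound {m : ℕ} (φ : L →ₗ[k] (Fin m → k)) (h : Function.Injective φ) :
    ∃ C : ℝ, 0 ≤ C ∧ ∀ x, nm b x ≤ C * ‖φ x‖ := by
  obtain ⟨g, hg⟩ := LinearMap.exists_leftInverse_of_injective φ (LinearMap.ker_eq_bot.2 h)
  obtain ⟨C, hC, h1⟩ := lin_bound (Pi.basisFun k (Fin m)) (b.equivFun.toLinearMap ∘ₗ g)
  refine ⟨C, hC, fun x => ?_⟩
  have h2 := h1 (φ x)
  have h3 : g (φ x) = x := LinearMap.congr_fun hg x
  rw [LinearMap.comp_apply, h3] at h2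
  exact h2

section lie

variable {L : Type} [LieRing L] [LieAlgebra k L] (b : Basis (Fin n) k L)

theorem lie_sum_basis (x y : L) : ⁅x, y⁆ = ∑ i, ∑ j, (b.repr x i * b.repr y j) • ⁅b i, b j⁆ := by
  conv_lhs => rw [← b.sum_repr x, ← b.sum_repr y]
  rw [sum_lie_sum]
  refine Finset.sum_congr rfl fun i _ => Finset.sum_congr rfl fun j _ => ?_
  rw [smul_lie, lie_smul, smul_smul]

theorem lie_bound : ∃ C : ℝ, 0 ≤ C ∧ ∀ x y : L, nm b ⁅x, y⁆ ≤ C * nm b x * nm b y := by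
  refine ⟨∑ i, ∑ j, nm b ⁅b i, b j⁆, Finset.sum_nonneg fun i _ => Finset.sum_nonneg fun j _ =>
    nm_nonneg b _, fun x y => ?_⟩
  rw [lie_sum_basis b x y, Finset.sum_mul, Finset.sum_mul]
  refine (nm_sum_le b _ _).trans (Finset.sum_le_sum fun i _ => ?_)
  rw [Finset.sum_mul, Finset.sum_mul]
  refine (nm_sum_le b _ _).trans (Finset.sum_le_sum fun j _ => ?_)
  rw [nm_smul, norm_mul]
  calc ‖b.repr x i‖ * ‖b.repr y j‖ * nm b ⁅b i, b j⁆ ≤ nm b x * nm b y * nm b ⁅b i, b j⁆ :=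
        mul_le_mul_of_nonneg_right (mul_le_mul (coord_le b x i) (coord_le b y j) (norm_nonneg _)
          (nm_nonneg b x)) (nm_nonneg b _)
    _ = _ := by ring

theorem ad_pow_bound {C : ℝ} (hC : 0 ≤ C) (h : ∀ x y : L, nm b ⁅x, y⁆ ≤ C * nm b x * nm b y)
    (z x : L) (m : ℕ) : nm b (((LieAlgebra.ad k L z) ^ m) x) ≤ (C * nm b z) ^ m * nm b x := by
  induction m with
  | zero => simp
  | succ m ih =>
    rw [pow_succ', Module.End.mul_apply, LieAlgebra.ad_apply]
    refine (h _ _).trans ?_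
    rw [pow_succ', mul_assoc (C * nm b z)]
    exact mul_le_mul_of_nonneg_left ih (mul_nonneg hC (nm_nonneg b z))

theorem ex_apply (X : Module.End k L) (x : L) : ex X x =
    ∑ i ∈ Finset.range (finrank k L + 1), ((i.factorial : k)⁻¹) • (X ^ i) x := by
  unfold ex
  rw [LinearMap.sum_apply]
  rfl

/-- `eu z` is bounded in terms of `z` -/
theorem eu_bound (K : ℝ) : ∃ C : ℝ, 0 ≤ C ∧ ∀ z : L, nm b z ≤ K → ∀ x, nm b (eu k z x) ≤
    C * nm b x := by
  obtain ⟨C, hC, h⟩ := lie_bound b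
  refine ⟨∑ i ∈ Finset.range (finrank k L + 1), ‖(i.factorial : k)⁻¹‖ * (C * |K|) ^ i,
    Finset.sum_nonneg fun i _ => mul_nonneg (norm_nonneg _) (pow_nonneg (mul_nonneg hC
      (abs_nonneg _)) _), fun z hz x => ?_⟩
  rw [eu, ex_apply, Finset.sum_mul]
  refine (nm_sum_le b _ _).trans (Finset.sum_le_sum fun i _ => ?_)
  rw [nm_smul, mul_assoc]
  refine mul_le_mul_of_nonneg_left ((ad_pow_bound b hC h z x i).trans ?_) (norm_nonneg _)
  refine mul_le_mul_of_nonneg_right (pow_le_pow_left₀ (mul_nonneg hC (nm_nonneg b z)) ?_ i)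
    (nm_nonneg b x)
  exact mul_le_mul_of_nonneg_left (hz.trans (le_abs_self K)) hC

end lie

end Vale.Agent.P092.H710.Rp
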