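import Vale.Agent.P092.H710.Rp.Kak
import Vale.Agent.P092.H790.TgtRp

/-!
P092, project RP (helper710): `Tgt` for the class `RP`, from P7 and helper790's `tgt_rp`.
-/

set_option linter.all false

open Module

namespace Vale.Agent.P092.H710.Rp

open Vale.Agent.P092.H213.Rp

variable {k : Type} [NontriviallyNormedField k] [ProperSpace k] [IsUltrametricDist k] [CharZero k]
  {L : Type} [LieRing L] [LieAlgebra k L] {n r : ℕ} {G : Type} [Group G] [TopologicalSpace G]
  {b₀ b : Basis (Fin n) k L} {wt : Fin n → Fin r → ℤ} {E F H : Fin r → L}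
  {ρ : G →* Module.End k L}

theorem exists_pi (k : Type) [NontriviallyNormedField k] : ∃ π : kˣ, 1 < ‖(π : k)‖ := by
  obtain ⟨x, hx⟩ := NormedField.exists_one_lt_norm k
  exact ⟨Units.mk0 x (norm_pos_iff.1 (one_pos.trans hx)), hx⟩

theorem tgt (hρ : RP b₀ ρ) (hR : Rt b wt E F H) : H515.Tgt G r := by
  obtain ⟨π, hπ⟩ := exists_pi k
  obtain ⟨C, hC⟩ := car hρ hR π hπ
  exact H790.Mrg.tgt_rp hρ b wt π C hC

end Vale.Agent.P092.H710.Rp
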