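import Vale.Agent.P092.H710.Rp.Del
import Mathlib.LinearAlgebra.Matrix.Block
import Mathlib.Data.Int.Interval

/-!
P092, project RP, block P7 (helper710), part 6: the thresholds, unipotent matrices.
-/

set_option linter.all false

open Matrix

namespace Vale.Agent.P092.H710.Rp

section unip

variable {k : Type} [CommRing k] {n : ℕ} {J : Type} [Fintype J] [DecidableEq J] {M : Type}
  [DecidableEq M]

theorem Del_unip {cl : J → M} {e : J → Fin n} {S : M → Fin n → Prop} (hB : Blk cl e S)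
    (v : Fin n → ℤ) (s : Matrix (Fin n) (Fin n) k) (h0 : ∀ i l, v l < v i → s i l = 0)
    (h1 : ∀ i l, v i = v l → s i l = (1 : Matrix (Fin n) (Fin n) k) i l) : Del cl e s = 1 := by
  have hT : (B cl e s e).BlockTriangular fun j => v (e j) := by
    intro j l hjl
    simp only [B, Matrix.of_apply]
    rw [h0 _ _ hjl]
    split_ifs <;> rfl
  rw [Del, hT.det]
  refine Finset.prod_eq_one fun a _ => ?_
  have h2 : (B cl e s e).toSquareBlock (fun j => v (e j)) a = 1 := by
    ext ⟨j, hj⟩ ⟨l, hl⟩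
    simp only [Matrix.toSquareBlock_def, Matrix.of_apply]
    have h3 := congrFun (congrFun (B_one (k := k) hB) j) l
    simp only [B, Matrix.of_apply] at h3 ⊢
    rw [h1 _ _ (hj.trans hl.symm), h3, Matrix.one_apply, Matrix.one_apply]
    simp [Subtype.ext_iff]
  rw [h2, det_one]

end unip

section thr

variable {n : ℕ}

/-- the thresholds -/
abbrev Th (D : ℕ) : Type := ↥(Finset.Icc (-(D : ℤ)) D)

/-- the rows of all blocks -/
abbrev Jt (d : Fin n → ℤ) (D : ℕ) : Type := {p : Th D × Fin n // (p.1 : ℤ) ≤ d p.2}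

def clt (d : Fin n → ℤ) (D : ℕ) : Jt d D → Th D := fun p => p.1.1

def et (d : Fin n → ℤ) (D : ℕ) : Jt d D → Fin n := fun p => p.1.2

theorem blk (d : Fin n → ℤ) (D : ℕ) : Blk (clt d D) (et d D) fun c i => (c : ℤ) ≤ d i := by
  refine ⟨?_, ?_, ?_⟩
  · rintro ⟨⟨c, i⟩, h⟩ ⟨⟨c', i'⟩, h'⟩ h1 h2
    simp only [clt, et] at h1 h2
    subst h1 h2
    rfl
  · rintro ⟨⟨c, i⟩, h⟩
    exact h
  · intro c i h
    exact ⟨⟨⟨c, i⟩, h⟩, rfl, rfl⟩

theorem sum_et {k : Type} [Ring k] (d : Fin n → ℤ) (D : ℕ) (hD : ∀ i, |d i| ≤ D) (f : Fin n → k) :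
    ∑ j : Jt d D, f (et d D j) = ∑ i, ((d i : k) + D + 1) * f i := by
  have h1 : ∑ j : Jt d D, f (et d D j) =
      ∑ p : Th D × Fin n, if (p.1 : ℤ) ≤ d p.2 then f p.2 else 0 := by
    rw [← Finset.sum_filter]
    exact (Finset.sum_subtype (p := fun p : Th D × Fin n => (p.1 : ℤ) ≤ d p.2)
      (Finset.univ.filter fun p : Th D × Fin n => (p.1 : ℤ) ≤ d p.2) (by simp)
      (fun p => f p.2)).symm
  rw [h1, Fintype.sum_prod_type_right]
  refine Finset.sum_congr rfl fun i _ => ?_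
  simp only
  rw [Finset.sum_coe_sort (Finset.Icc (-(D : ℤ)) D) (fun c => if c ≤ d i then f i else 0),
    ← Finset.sum_filter, Finset.sum_const, nsmul_eq_mul]
  congr 1
  have h2 : (Finset.Icc (-(D : ℤ)) D).filter (fun c => c ≤ d i) = Finset.Icc (-(D : ℤ)) (d i) := by
    ext c
    simp only [Finset.mem_filter, Finset.mem_Icc]
    have := abs_le.1 (hD i)
    omega
  rw [h2, Int.card_Icc]
  have h3 := abs_le.1 (hD i)
  have h4 : ((d i + 1 - -(D : ℤ)).toNat : ℤ) = d i + D + 1 := by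
    rw [Int.toNat_of_nonneg (by omega)]; ring
  have h5 : (((d i + 1 - -(D : ℤ)).toNat : ℤ) : k) = ((d i + D + 1 : ℤ) : k) := by rw [h4]
  push_cast at h5
  rw [h5]

end thr

end Vale.Agent.P092.H710.Rp
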